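import Vale.Agent.P260Z.L2.Defs

/-!
# P260, layer 2: absorption over an invariant open set
-/

noncomputable section

namespace Vale.Agent.P260Z.L2

open Set Topology

variable {G Z X : Type} [Group G] [TopologicalSpace Z] [TopologicalSpace X]
  [MulAction G Z] [MulAction G X] {j : Z → X} (c : Collar G j) (A : ConeAt Z)

namespace AbsA

/-- a dilation of the foot point with a change of the height -/
def dil (ν η : X → ℝ) (x : X) : X := c.c (A.ctr (ν x) (c.pr x), η x)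

/-- the conditions for the dilation -/
structure Dom (ν η : X → ℝ) (x : X) : Prop where
  ht : c.ht x < 1
  r : A.r (c.pr x) < 1
  pos : 0 < ν x
  lt : ν x * A.r (c.pr x) < 1
  mem : η x ∈ Ico (0 : ℝ) 1

variable {c A} {ν η : X → ℝ} {x x' : X}

theorem Dom.of_le (h1 : c.ht x < 1) (h2 : A.r (c.pr x) < 1) (h3 : 0 < ν x) (h4 : ν x ≤ 1)
    (h5 : η x ∈ Ico (0 : ℝ) 1) : Dom c A ν η x :=
  ⟨h1, h2, h3, (mul_le_of_le_one_left (A.r_nonneg _) h4).trans_lt h2, h5⟩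

theorem Dom.pr_eq (h : Dom c A ν η x) : c.pr (dil c A ν η x) = A.ctr (ν x) (c.pr x) :=
  c.pr_c _ _ h.mem

theorem Dom.ht_eq (h : Dom c A ν η x) : c.ht (dil c A ν η x) = η x := c.ht_c _ _ h.mem

theorem Dom.r_eq (h : Dom c A ν η x) : A.r (c.pr (dil c A ν η x)) = ν x * A.r (c.pr x) := by
  rw [h.pr_eq, A.r_ctr _ _ h.pos.le h.r h.lt]

theorem Dom.inv (h : Dom c A ν η x) : A.ctr (ν x)⁻¹ (c.pr (dil c A ν η x)) = c.pr x := by
  have e := inv_mul_cancel₀ h.pos.ne'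
  rw [h.pr_eq, A.ctr_ctr _ _ _ (inv_pos.2 h.pos).le h.pos.le h.r h.lt (by rw [e, one_mul]; exact h.r),
    e, A.ctr_one _ h.r]

theorem Dom.inj (h : Dom c A ν η x) (h' : Dom c A ν η x') (e : dil c A ν η x = dil c A ν η x')
    (h1 : η x = η x' → ν x * A.r (c.pr x) = ν x' * A.r (c.pr x') → ν x = ν x')
    (h2 : η x = η x' → c.pr x = c.pr x' → c.ht x = c.ht x') : x = x' := by
  have h3 : η x = η x' := by rw [← h.ht_eq, e, h'.ht_eq]
  have h4 : c.pr x = c.pr x' := by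
    rw [← h.inv, e, h1 h3 (by rw [← h.r_eq, e, h'.r_eq]), h'.inv]
  rw [← c.c_pr x h.ht, h2 h3 h4, h4, c.c_pr x' h'.ht]

theorem dil_cont {T : Set X} (h : ∀ x ∈ T, Dom c A ν η x) (h1 : ContinuousOn ν T)
    (h2 : ContinuousOn η T) : ContinuousOn (dil c A ν η) T :=
  c.c_cont.comp ((A.ctr_cont.comp (h1.prodMk (c.pr_cont.mono fun x hx => (h x hx).ht))
    fun x hx => ⟨(h x hx).pos.le, (h x hx).r, (h x hx).lt⟩).prodMk h2)
    fun x hx => ⟨trivial, (h x hx).mem⟩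

theorem pr_j (c : Collar G j) (z : Z) : c.pr (j z) = z := by
  rw [← c.c_zero, c.pr_c z 0 ⟨le_rfl, one_pos⟩]

theorem ht_j (c : Collar G j) (z : Z) : c.ht (j z) = 0 := by
  rw [← c.c_zero, c.ht_c z 0 ⟨le_rfl, one_pos⟩]

/-- the contraction of a neighbourhood of the cone point -/
theorem exists_ctr [T2Space X] (c : Collar G j) (A : ConeAt Z) {a b : ℝ} (hab : a < b)
    (hb : b < 1) : ∃ K, IsCompact K ∧ ∀ e, 0 < e → e ≤ 1 → ∃ Θ : X → X, Continuous Θ ∧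
      Function.Injective Θ ∧ (∀ x, x ∉ K → Θ x = x) ∧ MapsTo Θ K K ∧
      ∀ z, A.r z ≤ a → Θ (j z) = j (A.ctr e z) := by
  classical
  have hK : IsCompact (c.c '' {z | A.r z ≤ b} ×ˢ Icc (0 : ℝ) (1 / 2)) :=
    ((A.cpt b hb).prod isCompact_Icc).image_of_continuousOn
      (c.c_cont.mono fun y hy => ⟨trivial, hy.2.1, hy.2.2.trans_lt (by norm_num)⟩)
  refine ⟨_, hK, fun e h0 h1 => ?_⟩
  let μ : ℝ → ℝ → ℝ := fun t h => min 1 (e + max 0 (t - a) / (b - a) + 2 * h)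
  let ν : X → ℝ := fun x => μ (A.r (c.pr x)) (c.ht x)
  let U : Set X := {x | c.ht x < 1} ∩ c.pr ⁻¹' {z | A.r z < 1}
  have hba : 0 < b - a := sub_pos.2 hab
  have m0 : ∀ x, 0 < ν x := fun x => lt_min one_pos (by
    have := c.ht_nonneg x
    positivity)
  have hD : ∀ x ∈ U, Dom c A ν c.ht x := fun x hx =>
    .of_le hx.1 hx.2 (m0 x) (min_le_left _ _) ⟨c.ht_nonneg x, hx.1⟩
  have hU : IsOpen U := c.pr_cont.isOpen_inter_preimage (isOpen_lt c.ht_cont continuous_const)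
    (isOpen_lt A.r_cont continuous_const)
  have hm : ∀ x, x ∈ c.c '' {z | A.r z ≤ b} ×ˢ Icc (0 : ℝ) (1 / 2) ↔
      A.r (c.pr x) ≤ b ∧ c.ht x ≤ 1 / 2 := fun x => by
    refine ⟨?_, fun h => ⟨(c.pr x, c.ht x), ⟨h.1, c.ht_nonneg x, h.2⟩,
      c.c_pr x (h.2.trans_lt (by norm_num))⟩⟩
    rintro ⟨⟨z, h⟩, ⟨h2, h3⟩, rfl⟩
    have h4 : h ∈ Ico (0 : ℝ) 1 := ⟨h3.1, h3.2.trans_lt (by norm_num)⟩
    rw [c.pr_c z h h4, c.ht_c z h h4]
    exact ⟨h2, h3.2⟩
  have hKU : ∀ x ∈ c.c '' {z | A.r z ≤ b} ×ˢ Icc (0 : ℝ) (1 / 2), x ∈ U := fun x hx =>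
    ⟨((hm x).1 hx).2.trans_lt (by norm_num), ((hm x).1 hx).1.trans_lt hb⟩
  have hid : ∀ x, x ∉ c.c '' {z | A.r z ≤ b} ×ˢ Icc (0 : ℝ) (1 / 2) →
      U.piecewise (dil c A ν c.ht) id x = x := fun x hx => by
    by_cases h : x ∈ U
    · have h2 : ν x = 1 := min_eq_left (by
        have h3 := c.ht_nonneg x
        have h4 : 0 ≤ max 0 (A.r (c.pr x) - a) / (b - a) := by positivity
        rcases not_and_or.1 (mt (hm x).2 hx) with h5 | h5
        · have : 1 ≤ max 0 (A.r (c.pr x) - a) / (b - a) :=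
            (one_le_div hba).2 (le_max_of_le_right (by linarith [not_le.1 h5]))
          linarith
        · linarith [not_le.1 h5])
      rw [piecewise_eq_of_mem _ _ _ h, dil, h2, A.ctr_one _ h.2, c.c_pr x h.1]
    · exact piecewise_eq_of_notMem _ _ _ h
  have hUU : ∀ x ∈ U, dil c A ν c.ht x ∈ U := fun x hx =>
    ⟨(hD x hx).ht_eq.trans_lt hx.1, (hD x hx).r_eq.trans_lt (hD x hx).lt⟩
  refine ⟨U.piecewise (dil c A ν c.ht) id, continuous_iff_continuousAt.2 fun x => ?_,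
    fun x x' h => ?_, hid, fun x hx => ?_, fun z hz => ?_⟩
  · by_cases h : x ∈ U
    · refine ((dil_cont hD ?_ c.ht_cont.continuousOn).congr fun y hy =>
        piecewise_eq_of_mem _ _ _ hy).continuousAt (hU.mem_nhds h)
      have h2 : Continuous fun y : ℝ × ℝ => μ y.1 y.2 := by fun_prop
      exact h2.comp_continuousOn ((A.r_cont.comp_continuousOn
        (c.pr_cont.mono inter_subset_left)).prodMk c.ht_cont.continuousOn)
    · exact continuousAt_id.congr (Filter.eventually_of_mem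
        (hK.isClosed.isOpen_compl.mem_nhds fun o => h (hKU x o)) fun y hy => (hid y hy).symm)
  · by_cases h2 : x ∈ U <;> by_cases h3 : x' ∈ U
    · rw [piecewise_eq_of_mem _ _ _ h2, piecewise_eq_of_mem _ _ _ h3] at h
      refine (hD x h2).inj (hD x' h3) h (fun h4 h5 => ?_) fun h4 _ => h4
      have key : ∀ y y', c.ht y = c.ht y' → A.r (c.pr y) < A.r (c.pr y') →
          ν y * A.r (c.pr y) < ν y' * A.r (c.pr y') := fun y y' h6 h7 =>
        (mul_lt_mul_of_pos_left h7 (m0 y)).trans_le (mul_le_mul_of_nonneg_right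
          (min_le_min_left _ (by rw [h6]; gcongr)) (A.r_nonneg _))
      have h6 : A.r (c.pr x) = A.r (c.pr x') := le_antisymm
        (not_lt.1 fun o => (key _ _ h4.symm o).ne' h5) (not_lt.1 fun o => (key _ _ h4 o).ne h5)
      simp only [ν, h4, h6]
    · rw [piecewise_eq_of_mem _ _ _ h2, piecewise_eq_of_notMem _ _ _ h3] at h
      exact absurd (h ▸ hUU x h2 : id x' ∈ U) h3
    · rw [piecewise_eq_of_mem _ _ _ h3, piecewise_eq_of_notMem _ _ _ h2] at h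
      exact absurd (h ▸ hUU x' h3 : id x ∈ U) h2
    · rwa [piecewise_eq_of_notMem _ _ _ h3, piecewise_eq_of_notMem _ _ _ h2] at h
  · have h2 := hD x (hKU x hx)
    rw [piecewise_eq_of_mem _ _ _ (hKU x hx), hm, h2.r_eq, h2.ht_eq]
    exact ⟨(mul_le_of_le_one_left (A.r_nonneg _) (min_le_left _ _)).trans ((hm x).1 hx).1,
      ((hm x).1 hx).2⟩
  · have h2 : j z ∈ U := hKU _ ((hm _).2 (by
      rw [pr_j, ht_j]
      exact ⟨hz.trans hab.le, by norm_num⟩))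
    have h3 : ν (j z) = e := by
      simp only [ν, μ, pr_j, ht_j, max_eq_left (sub_nonpos.2 hz)]
      simpa using h1
    rw [piecewise_eq_of_mem _ _ _ h2, dil, h3, pr_j, ht_j, c.c_zero]

end AbsA

open AbsA in
theorem abs1_of [T2Space X] [T2Space Z] [LocallyCompactSpace Z] (c : Collar G j) (A : ConeAt Z)
    (h0 : ∀ C : Set X, IsCompact C → ∃ ε, 0 < ε ∧ ε < 1 / 2 ∧ ∃ κ : X → X, ContinuousOn κ C ∧
      InjOn κ C ∧ (∀ x ∈ C, c.ht (κ x) ≤ 1 / 4 ∧ A.r (c.pr (κ x)) ≤ ε) ∧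
      ∀ z, A.r z ≤ ε → κ (j z) = j z)
    {N B : Set Z} (hN : IsOpen N) (hp : A.p ∈ N)
    (hr : ∀ z ∈ N, A.r z < 1) (hi : ∀ z ∈ N, ∀ μ, 0 < μ → μ ≤ 1 → A.ctr μ z ∈ N)
    (hB : IsCompact B) (hBN : B ⊆ N) {C : Set X} (hC : IsCompact C) :
    ∃ κ : X → X, ContinuousOn κ C ∧ InjOn κ C ∧
      (∀ x ∈ C, c.ht (κ x) < 1 / 2 ∧ c.pr (κ x) ∈ N) ∧ ∀ z ∈ B, κ (j z) = j z := by
  obtain ⟨a, a1, a2, ha⟩ : ∃ a : ℝ, 1 / 2 ≤ a ∧ a < 1 ∧ ∀ z ∈ B, A.r z ≤ a := by
    obtain ⟨t, h1, h2⟩ := hB.exists_forall_le' (f := fun z => 1 - A.r z) (a := 0)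
      (continuous_const.sub A.r_cont).continuousOn fun z hz => sub_pos.2 (hr z (hBN hz))
    exact ⟨max (1 / 2) (1 - t), le_max_left _ _, max_lt (by norm_num) (by linarith),
      fun z hz => le_max_of_le_right (by linarith [h2 z hz])⟩
  obtain ⟨m, m1, m2, hm⟩ : ∃ m : ℝ, 0 < m ∧ m ≤ 1 ∧ ∀ z, A.r z ≤ m → z ∈ N := by
    obtain ⟨t, h1, h2⟩ := ((A.cpt (1 / 2) (by norm_num)).diff hN).exists_forall_le' (a := 0)
      A.r_cont.continuousOn fun z hz => (A.r_nonneg z).lt_of_ne' fun o => hz.2 (A.eq_p z o ▸ hp)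
    refine ⟨min (t / 2) (1 / 2), by positivity, min_le_of_right_le (by norm_num), fun z hz => ?_⟩
    by_contra hn
    linarith [h2 z ⟨hz.trans (min_le_right _ _), hn⟩, hz.trans (min_le_left _ _)]
  obtain ⟨d, d0, d1, hd⟩ := exists_continuous_zero_one_of_isCompact hB hN.isClosed_compl
    (disjoint_compl_right.mono_left hBN)
  obtain ⟨K, hK, h1⟩ := exists_ctr c A (a := a) (b := (a + 1) / 2) (by linarith) (by linarith)
  obtain ⟨ε, e0, e1, κ, k1, k2, k3, k4⟩ := h0 _ (hC.union hK)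
  have a0 : 0 < a := by linarith
  obtain ⟨Θ, t1, t2, t3, t4, t5⟩ := h1 (ε / a) (by positivity) ((div_le_one a0).2 (by linarith))
  have t6 : MapsTo Θ C (C ∪ K) := fun x hx => by
    by_cases h : x ∈ K
    · exact Or.inr (t4 h)
    · exact Or.inl ((t3 x h).symm ▸ hx)
  let η : X → ℝ := fun x => (c.ht x + d (c.pr x)) / 4
  let ν : X → ℝ := fun x => max m (1 - 4 * η x)
  have D1 : ∀ x ∈ {x | c.ht x ≤ 1 / 4 ∧ A.r (c.pr x) ≤ ε}, Dom c A (fun _ => a / ε) c.ht x :=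
    fun x hx => ⟨by linarith [hx.1], by linarith [hx.2], by positivity,
      (mul_le_mul_of_nonneg_left hx.2 (by positivity)).trans_lt (by
        rwa [div_mul_cancel₀ _ e0.ne']), c.ht_nonneg x, by linarith [hx.1]⟩
  have D2 : ∀ x ∈ {x | c.ht x ≤ 1 / 4 ∧ A.r (c.pr x) < 1}, Dom c A ν η x := fun x hx => by
    have h2 := c.ht_nonneg x
    have h3 := hd (c.pr x)
    refine .of_le (by linarith [hx.1]) hx.2 (lt_max_of_lt_left m1) (max_le m2 ?_) ⟨?_, ?_⟩ <;>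
      simp only [η] <;> linarith [h3.1, h3.2, hx.1]
  have M1 : MapsTo (κ ∘ Θ) C {x | c.ht x ≤ 1 / 4 ∧ A.r (c.pr x) ≤ ε} := fun x hx => k3 _ (t6 hx)
  have M2 : MapsTo (dil c A (fun _ => a / ε) c.ht) {x | c.ht x ≤ 1 / 4 ∧ A.r (c.pr x) ≤ ε}
      {x | c.ht x ≤ 1 / 4 ∧ A.r (c.pr x) < 1} := fun x hx =>
    ⟨(D1 x hx).ht_eq.trans_le hx.1, (D1 x hx).r_eq.trans_lt (D1 x hx).lt⟩
  have hη : ContinuousOn η {x | c.ht x ≤ 1 / 4 ∧ A.r (c.pr x) < 1} :=
    (c.ht_cont.continuousOn.add (d.continuous.comp_continuousOn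
      (c.pr_cont.mono fun x hx => (D2 x hx).ht))).div_const 4
  refine ⟨dil c A ν η ∘ dil c A (fun _ => a / ε) c.ht ∘ κ ∘ Θ, ?_, ?_, fun x hx => ?_,
    fun z hz => ?_⟩
  · exact (dil_cont D2 (continuousOn_const.sup (continuousOn_const.sub (hη.const_mul 4))) hη).comp
      ((dil_cont D1 continuousOn_const c.ht_cont.continuousOn).comp
        (k1.comp t1.continuousOn t6) M1) (M2.comp M1)
  · refine InjOn.comp (fun x hx x' hx' e => (D2 x hx).inj (D2 x' hx') e (fun h _ => ?_) fun h h' => ?_)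
      (InjOn.comp (fun x hx x' hx' e => (D1 x hx).inj (D1 x' hx') e (fun _ _ => rfl) fun h _ => h)
        (k2.comp t2.injOn t6) M1) (M2.comp M1)
    · simp only [ν, h]
    · simp only [η, h'] at h
      linarith
  · have h2 := M2.comp M1 hx
    have h3 := D2 _ h2
    change c.ht (dil c A ν η _) < _ ∧ c.pr (dil c A ν η _) ∈ N
    generalize (dil c A (fun _ => a / ε) c.ht ∘ κ ∘ Θ) x = y at h2 h3 ⊢
    refine ⟨h3.ht_eq.trans_lt (by simp only [η]; linarith [(hd (c.pr y)).2, h2.1]), ?_⟩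
    by_cases h : c.pr y ∈ N
    · exact h3.pr_eq ▸ hi _ h _ h3.pos (max_le m2 (by linarith [h3.mem.1]))
    · have h4 : ν y = m := max_eq_left (by
        have h5 : d (c.pr y) = 1 := d1 h
        simp only [η]
        linarith [c.ht_nonneg y])
      exact hm _ (by rw [h3.r_eq, h4]; exact mul_le_of_le_one_right m1.le h2.2.le)
  · have h2 : ε / a * A.r z ≤ ε :=
      (mul_le_mul_of_nonneg_left (ha z hz) (by positivity)).trans_eq (div_mul_cancel₀ _ a0.ne')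
    have h3 := hr z (hBN hz)
    have h4 : a / ε * (ε / a) = 1 := by field_simp
    have h5 : dil c A (fun _ => a / ε) c.ht (j (A.ctr (ε / a) z)) = j z := by
      rw [dil, pr_j, ht_j, A.ctr_ctr _ _ _ (by positivity) (by positivity) h3 (by linarith)
        (by rwa [h4, one_mul]), h4, A.ctr_one z h3, c.c_zero]
    have h6 : η (j z) = 0 := by simp [η, pr_j, ht_j, d0 hz]
    simp only [Function.comp_apply]
    rw [t5 z (ha z hz), k4 _ ((A.r_ctr _ _ (by positivity) h3 (by linarith)).trans_le h2), h5, dil,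
      pr_j, h6, c.c_zero, show ν (j z) = 1 by simp [ν, h6, m2], A.ctr_one z h3]

end Vale.Agent.P260Z.L2
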