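import Vale.Agent.P260Z.L2.Abs0
import Vale.Agent.P260Z.L2.Abs1

/-!
# P260, layer 2: absorption over an invariant open set
-/

noncomputable section

namespace Vale.Agent.P260Z.L2

open Set Topology

variable {G Z X : Type} [Group G] [TopologicalSpace Z] [TopologicalSpace X]
  [MulAction G Z] [MulAction G X]

theorem abs1 [T2Space X] [T2Space Z] [LocallyCompactSpace Z] {j : Z → X} (c : Collar G j)
    (H : HS j) (D : DEV X) (A : ConeAt Z) {N B : Set Z} (hN : IsOpen N) (hp : A.p ∈ N)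
    (hr : ∀ z ∈ N, A.r z < 1) (hi : ∀ z ∈ N, ∀ μ, 0 < μ → μ ≤ 1 → A.ctr μ z ∈ N)
    (hB : IsCompact B) (hBN : B ⊆ N) {C : Set X} (hC : IsCompact C) :
    ∃ κ : X → X, ContinuousOn κ C ∧ InjOn κ C ∧
      (∀ x ∈ C, c.ht (κ x) < 1 / 2 ∧ c.pr (κ x) ∈ N) ∧ ∀ z ∈ B, κ (j z) = j z :=
  abs1_of c A (fun _ h => abs0 c H D A h) hN hp hr hi hB hBN hC

end Vale.Agent.P260Z.L2
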