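import Vale.Agent.P260Z.L2.Defs
import Vale.Agent.P073Z.A8a

/-!
# P260, layer 2: a compact set is squeezed into a small prism at the boundary
-/

set_option linter.all false

noncomputable section

namespace Vale.Agent.P260Z.L2

open Set Topology Filter Metric

variable {G Z X : Type} [Group G] [TopologicalSpace Z] [TopologicalSpace X]
  [MulAction G Z] [MulAction G X]

namespace Abs0

/-- a bounded injective function which is the identity near zero -/
theorem squeeze {a : ℝ} (ha : 0 < a) : ∃ g : ℝ → ℝ, Continuous g ∧ Function.Injective g ∧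
    (∀ t, |t| ≤ a → g t = t) ∧ ∀ t, |g t| ≤ 3 * a := by
  let cl : ℝ → ℝ := fun t => max (-a) (min a t)
  refine ⟨fun t => cl t + a * Real.arctan (t - cl t), by fun_prop,
    StrictMono.injective fun s t h => ?_, fun t ht => ?_, fun t => ?_⟩
  · have h1 : cl s ≤ cl t := max_le_max le_rfl (min_le_min le_rfl h.le)
    have h2 : s - cl s ≤ t - cl t := by
      simp only [cl, max_def, min_def]
      split_ifs <;> linarith
    rcases h1.lt_or_eq with h3 | h3
    · exact add_lt_add_of_lt_of_le h3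
        (mul_le_mul_of_nonneg_left (Real.arctan_strictMono.monotone h2) ha.le)
    · exact add_lt_add_of_le_of_lt h1
        (mul_lt_mul_of_pos_left (Real.arctan_strictMono (by linarith)) ha)
  · have h1 : cl t = t := by
      simp only [cl]
      rw [min_eq_right (abs_le.1 ht).2, max_eq_right (abs_le.1 ht).1]
    simp [h1]
  · have h1 : -a ≤ cl t := le_max_left _ _
    have h2 : cl t ≤ a := max_le (by linarith) (min_le_left _ _)
    have h3 := Real.arctan_lt_pi_div_two (t - cl t)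
    have h4 := Real.neg_pi_div_two_lt_arctan (t - cl t)
    have h5 := Real.pi_le_four
    rw [abs_le]
    constructor <;> nlinarith

theorem cont_inv [Nonempty X] {Y : Type} [TopologicalSpace Y] [T2Space Y] {f : X → Y} {N : Set X}
    (hN : IsCompact N) (hf : ContinuousOn f N) (hi : InjOn f N) :
    ContinuousOn (Function.invFunOn f N) (f '' N) := by
  refine continuousOn_iff_isClosed.2 fun t ht => ⟨f '' (N ∩ t),
    ((hN.inter_right ht).image_of_continuousOn (hf.mono inter_subset_left)).isClosed, ?_⟩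
  ext y
  constructor
  · rintro ⟨h, x, hx, rfl⟩
    rw [mem_preimage, hi.leftInvOn_invFunOn hx] at h
    exact ⟨⟨x, ⟨hx, h⟩, rfl⟩, x, hx, rfl⟩
  · rintro ⟨⟨x, hx, rfl⟩, h⟩
    refine ⟨?_, h⟩
    rw [mem_preimage, hi.leftInvOn_invFunOn hx.1]
    exact hx.2

/-- a compact set is compressed into a neighbourhood of an interior point -/
theorem compress {j : Z → X} (H : HS j) (D : DEV X) {C N : Set X} (hC : IsCompact C)
    (hN : IsCompact N) {p : X} (hp : N ∈ 𝓝 p) (hj : p ∉ range j) :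
    ∃ f : X → X, ContinuousOn f (C ∪ N) ∧ InjOn f (C ∪ N) ∧ MapsTo f (C ∪ N) N ∧
      ∀ᶠ x in 𝓝 p, f x = x := by
  haveI : Nonempty X := ⟨p⟩
  obtain ⟨d, dc, di⟩ := D _ (hC.union hN)
  obtain ⟨O, M, φ, ψ, -, hM, pO, -, cψ, mφ, -, e1, e2, hb⟩ := H p
  let e : ((Fin 3 → ℝ) × ℝ) ≃L[ℝ] (Fin 4 → ℝ) := ContinuousLinearEquiv.ofFinrankEq (by simp)
  have hs : M ∩ {v | 0 < v.2} ⊆ M ∩ Hs := fun v hv => ⟨hv.1, (show 0 < v.2 from hv.2).le⟩
  have hU : IsOpen ((M ∩ {v | 0 < v.2}) ∩ ψ ⁻¹' interior N) :=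
    (cψ.mono hs).isOpen_inter_preimage (hM.inter (isOpen_lt continuous_const continuous_snd))
      isOpen_interior
  have h1 := P073.iod (f := fun y => d (ψ (e.symm y))) (hU.preimage e.symm.continuous)
    (dc.comp (cψ.comp e.symm.continuous.continuousOn fun y hy => hs hy.1)
      fun y hy => Or.inr (interior_subset hy.2))
    fun y hy y' hy' h => e.symm.injective (by
      rw [← e2 _ (hs hy.1), di (Or.inr (interior_subset hy.2)) (Or.inr (interior_subset hy'.2)) h,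
        e2 _ (hs hy'.1)])
  have h2 : d p ∈ (fun y => d (ψ (e.symm y))) '' (e.symm ⁻¹'
      ((M ∩ {v | 0 < v.2}) ∩ ψ ⁻¹' interior N)) := by
    refine ⟨e (φ p), ?_, by simp only [e.symm_apply_apply, e1 p pO]⟩
    rw [mem_preimage, e.symm_apply_apply]
    refine ⟨⟨(mφ pO).1, lt_of_le_of_ne (mφ pO).2 fun h => hj ((hb p pO).2 h.symm)⟩, ?_⟩
    rw [mem_preimage, e1 p pO]
    exact mem_interior_iff_mem_nhds.2 hp
  obtain ⟨R, hR, h3⟩ := nhds_basis_closedBall.mem_iff.1 (h1.mem_nhds h2)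
  obtain ⟨g, gc, gi, g1, g2⟩ := squeeze (show 0 < R / 3 by positivity)
  let cp : (Fin 4 → ℝ) → Fin 4 → ℝ := fun y i => d p i + g (y i - d p i)
  have h4 : ∀ y, cp y ∈ d '' N := fun y => by
    obtain ⟨v, hv, h⟩ := h3 (a := cp y) ((dist_pi_le_iff hR.le).2 fun i => by
      rw [Real.dist_eq, add_sub_cancel_left]
      linarith [g2 (y i - d p i)])
    exact ⟨_, interior_subset hv.2, h⟩
  refine ⟨fun x => Function.invFunOn d N (cp (d x)),
    (cont_inv hN (dc.mono subset_union_right) (di.mono subset_union_right)).comp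
      ((show Continuous cp by fun_prop).comp_continuousOn dc) fun x _ => h4 _,
    fun x hx y hy h => di hx hy (funext fun i => ?_), fun x _ => Function.invFunOn_mem (h4 _), ?_⟩
  · have h5 : cp (d x) = cp (d y) := (Function.invFunOn_eq (h4 _)).symm.trans
      ((congrArg d h).trans (Function.invFunOn_eq (h4 _)))
    exact sub_left_injective (gi (add_left_cancel (congrFun h5 i)))
  · filter_upwards [hp, (dc.continuousAt (mem_of_superset hp subset_union_right)).eventually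
      (closedBall_mem_nhds (d p) (show 0 < R / 3 by positivity))] with x h5 h6
    have h7 : cp (d x) = d x := funext fun i => by
      change d p i + g (d x i - d p i) = d x i
      rw [g1 _ ((dist_le_pi_dist (d x) (d p) i).trans h6), add_sub_cancel]
    rw [h7, (di.mono subset_union_right).leftInvOn_invFunOn h5]

/-- the space is pushed off the boundary -/
theorem push {j : Z → X} (c : Collar G j) : ∃ f : X → X, Continuous f ∧ Function.Injective f ∧
    (∀ x, 1 / 4 ≤ c.ht (f x)) ∧ ∀ z, f (j z) = c.c (z, 1 / 4) := by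
  classical
  let m : ℝ → ℝ := fun h => max h (1 / 4 + h / 2)
  have m1 : ∀ x, c.ht x < 1 → m (c.ht x) ∈ Ico (0 : ℝ) 1 := fun x h =>
    ⟨(c.ht_nonneg x).trans (le_max_left _ _), max_lt h (by linarith)⟩
  have m2 : ∀ h, 1 / 2 ≤ h → m h = h := fun h hh => max_eq_left (by linarith)
  have m3 : StrictMono m := fun a b h => max_lt_max h (by linarith)
  let f : X → X := fun x => if c.ht x < 1 then c.c (c.pr x, m (c.ht x)) else x
  have f1 : ∀ x, c.ht x < 1 → f x = c.c (c.pr x, m (c.ht x)) := fun x h => if_pos h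
  have f2 : ∀ x, 1 / 2 ≤ c.ht x → f x = x := fun x h => by
    by_cases h1 : c.ht x < 1
    · rw [f1 x h1, m2 _ h, c.c_pr x h1]
    · exact if_neg h1
  have f3 : ∀ x, c.ht (f x) = m (c.ht x) := fun x => by
    by_cases h1 : c.ht x < 1
    · rw [f1 x h1, c.ht_c _ _ (m1 x h1)]
    · rw [f2 x (by linarith), m2 _ (by linarith)]
  have z1 : (0 : ℝ) ∈ Ico (0 : ℝ) 1 := ⟨le_rfl, one_pos⟩
  refine ⟨f, continuous_iff_continuousAt.2 fun x => ?_, fun x y h => ?_, fun x => ?_, fun z => ?_⟩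
  · by_cases h1 : c.ht x < 1
    · have h2 : {x | c.ht x < 1} ∈ 𝓝 x := (isOpen_lt c.ht_cont continuous_const).mem_nhds h1
      refine ContinuousOn.continuousAt (ContinuousOn.congr ?_ f1) h2
      exact c.c_cont.comp (c.pr_cont.prodMk ((show Continuous m by fun_prop).comp
        c.ht_cont).continuousOn) fun x hx => ⟨trivial, m1 x hx⟩
    · refine continuousAt_id.congr ?_
      filter_upwards [(isOpen_lt continuous_const c.ht_cont).mem_nhds
        (show 1 / 2 < c.ht x by linarith)] with y hy using (f2 y hy.le).symm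
  · have h1 : c.ht x = c.ht y := m3.injective (by rw [← f3, ← f3, h])
    by_cases h2 : c.ht x < 1
    · have h3 := congrArg c.pr h
      rw [f1 x h2, f1 y (h1 ▸ h2), c.pr_c _ _ (m1 x h2), c.pr_c _ _ (m1 y (h1 ▸ h2))] at h3
      rw [← c.c_pr x h2, h3, h1, c.c_pr y (h1 ▸ h2)]
    · rwa [f2 x (by linarith), f2 y (by linarith)] at h
  · rw [f3]
    exact le_trans (by linarith [c.ht_nonneg x]) (le_max_right _ _)
  · rw [← c.c_zero, f1 _ (by rw [c.ht_c _ _ z1]; exact one_pos), c.pr_c _ _ z1, c.ht_c _ _ z1]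
    norm_num [m]

/-- the inversion in the boundary of a prism, followed by a translation -/
theorem inv (A : ConeAt Z) {ε δ : ℝ} (hε : 0 < ε) (hδ : 0 < δ) (q : ℝ) :
    ∃ F : Z × ℝ → Z × ℝ, ContinuousOn F {y | A.r y.1 < 1 ∧ (ε ≤ A.r y.1 ∨ δ ≤ |y.2 - q|)} ∧
      InjOn F {y | A.r y.1 < 1 ∧ (ε ≤ A.r y.1 ∨ δ ≤ |y.2 - q|)} ∧
      (∀ y : Z × ℝ, A.r y.1 < 1 → (ε ≤ A.r y.1 ∨ δ ≤ |y.2 - q|) →
        A.r (F y).1 ≤ ε ∧ 0 ≤ (F y).2 ∧ (F y).2 ≤ 2 * δ) ∧
      ∀ z, A.r z ≤ ε → A.r z < 1 → F (z, q + δ) = (z, 0) := by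
  let ν : Z × ℝ → ℝ := fun y => max (A.r y.1 / ε) (|y.2 - q| / δ)
  let μ : Z × ℝ → ℝ := fun y => (ν y ^ 2)⁻¹
  have νc : Continuous ν := by
    have := A.r_cont
    fun_prop
  have n1 : ∀ y : Z × ℝ, (ε ≤ A.r y.1 ∨ δ ≤ |y.2 - q|) → 1 ≤ ν y := fun y h =>
    le_max_iff.2 (h.imp (one_le_div hε).2 (one_le_div hδ).2)
  have n2 : ∀ y, 0 ≤ μ y := fun y => by positivity
  have n3 : ∀ y, 1 ≤ ν y → μ y ≤ 1 := fun y h => inv_le_one_of_one_le₀ (one_le_pow₀ h)
  have n4 : ∀ y : Z × ℝ, A.r y.1 < 1 → 1 ≤ ν y → μ y * A.r y.1 < 1 := fun y h h' =>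
    (mul_le_of_le_one_left (A.r_nonneg _) (n3 y h')).trans_lt h
  have n5 : ∀ y, 1 ≤ ν y → μ y * ν y = (ν y)⁻¹ := fun y h => by
    simp only [μ]
    field_simp
  have n6 : ∀ y, 1 ≤ ν y → ν y ^ 2 * μ y = 1 := fun y h => mul_inv_cancel₀ (by positivity)
  have n7 : ∀ y, μ y * ν y = max (μ y * A.r y.1 / ε) (|μ y * (y.2 - q)| / δ) := fun y => by
    rw [abs_mul, abs_of_nonneg (n2 y), mul_div_assoc, mul_div_assoc, ← mul_max_of_nonneg _ _ (n2 y)]
  refine ⟨fun y => (A.ctr (μ y) y.1, δ - μ y * (y.2 - q)), ?_, fun y hy y' hy' h => ?_,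
    fun y h h' => ?_, fun z h h' => ?_⟩
  · have μc : ContinuousOn μ {y | A.r y.1 < 1 ∧ (ε ≤ A.r y.1 ∨ δ ≤ |y.2 - q|)} :=
      (νc.pow 2).continuousOn.inv₀ fun y hy => pow_ne_zero 2 (one_pos.trans_le (n1 y hy.2)).ne'
    exact (A.ctr_cont.comp (μc.prodMk continuousOn_fst)
      fun y hy => ⟨n2 y, hy.1, n4 y hy.1 (n1 y hy.2)⟩).prodMk
      (continuousOn_const.sub (μc.mul (by fun_prop)))
  · have a1 := n1 y hy.2
    have a2 := n1 y' hy'.2
    have h1 : A.ctr (μ y) y.1 = A.ctr (μ y') y'.1 := congrArg Prod.fst h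
    have h2 : μ y * (y.2 - q) = μ y' * (y'.2 - q) := sub_right_injective (congrArg Prod.snd h)
    have h3 := congrArg A.r h1
    rw [A.r_ctr _ _ (n2 y) hy.1 (n4 y hy.1 a1), A.r_ctr _ _ (n2 y') hy'.1 (n4 y' hy'.1 a2)] at h3
    have h4 : ν y = ν y' := inv_injective (by rw [← n5 y a1, ← n5 y' a2, n7, n7, h2, h3])
    have h5 : μ y = μ y' := by simp only [μ, h4]
    have key : ∀ y : Z × ℝ, A.r y.1 < 1 → 1 ≤ ν y → A.ctr (ν y ^ 2) (A.ctr (μ y) y.1) = y.1 :=
      fun y h h' => by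
        rw [A.ctr_ctr _ _ _ (by positivity) (n2 y) h (n4 y h h') (by rwa [n6 y h', one_mul]),
          n6 y h', A.ctr_one _ h]
    refine Prod.ext (by rw [← key y hy.1 a1, h1, h4, key y' hy'.1 a2]) ?_
    rw [← h5] at h2
    exact sub_left_injective (mul_left_cancel₀ (inv_ne_zero (by positivity)) h2)
  · have a1 := n1 y h'
    have h1 : max (μ y * A.r y.1 / ε) (|μ y * (y.2 - q)| / δ) ≤ 1 := by
      rw [← n7, n5 y a1]
      exact inv_le_one_of_one_le₀ a1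
    rw [max_le_iff, div_le_one hε, div_le_one hδ, abs_le] at h1
    exact ⟨(A.r_ctr _ _ (n2 y) h (n4 y h a1)).trans_le h1.1, by linarith [h1.2.2],
      by linarith [h1.2.1]⟩
  · have h1 : μ (z, q + δ) = 1 := by
      simp only [μ, ν, add_sub_cancel_left, abs_of_pos hδ, div_self hδ.ne',
        max_eq_right ((div_le_one hε).2 h), one_pow, inv_one]
    simp only [h1, A.ctr_one z h', add_sub_cancel_left, one_mul, sub_self]

/-- small cones are inside a given neighbourhood of the cone point -/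
theorem small (A : ConeAt Z) {W : Set Z} (hW : W ∈ 𝓝 A.p) :
    ∃ ε, 0 < ε ∧ ε < 1 / 2 ∧ ∀ z, A.r z ≤ ε → z ∈ W := by
  obtain ⟨a, ha, h⟩ := ((A.cpt (1 / 2) one_half_lt_one).diff
    (isOpen_interior (s := W))).exists_forall_le' A.r_cont.continuousOn (a := 0) fun z hz =>
      lt_of_le_of_ne (A.r_nonneg z) fun e =>
        hz.2 (A.eq_p z e.symm ▸ mem_interior_iff_mem_nhds.2 hW)
  refine ⟨min (a / 2) (1 / 4), lt_min (half_pos ha) (by norm_num),
    (min_le_right _ _).trans_lt (by norm_num), fun z hz => ?_⟩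
  by_contra hc
  have h1 := h z ⟨hz.trans ((min_le_right _ _).trans (by norm_num)),
    fun h2 => hc (interior_subset h2)⟩
  linarith [hz.trans (min_le_left _ _)]

end Abs0

/-- block ABS0 (file L2/Abs0.lean) -/
theorem abs0 [T2Space X] {j : Z → X} (c : Collar G j) (H : HS j) (D : DEV X) (A : ConeAt Z)
    {C : Set X} (hC : IsCompact C) :
    ∃ ε, 0 < ε ∧ ε < 1 / 2 ∧ ∃ κ : X → X, ContinuousOn κ C ∧ InjOn κ C ∧
      (∀ x ∈ C, c.ht (κ x) ≤ 1 / 4 ∧ A.r (c.pr (κ x)) ≤ ε) ∧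
      ∀ z, A.r z ≤ ε → κ (j z) = j z := by
  obtain ⟨u, uc, ui, u1, u2⟩ := Abs0.push c
  have q1 : (1 / 4 : ℝ) ∈ Ico (0 : ℝ) 1 := by norm_num
  have i1 : Icc (1 / 8 : ℝ) (3 / 8) ⊆ Ico 0 1 := fun t ht => ⟨by linarith [ht.1], by linarith [ht.2]⟩
  let N : Set X := c.c '' ({z | A.r z ≤ 1 / 2} ×ˢ Icc (1 / 8) (3 / 8))
  have hN : IsCompact N := ((A.cpt _ one_half_lt_one).prod isCompact_Icc).image_of_continuousOn
    (c.c_cont.mono (prod_mono (subset_univ _) i1))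
  have N1 : ∀ x ∈ N, c.ht x < 1 ∧ A.r (c.pr x) < 1 := by
    rintro _ ⟨⟨z, h⟩, hz, rfl⟩
    rw [c.ht_c z h (i1 hz.2), c.pr_c z h (i1 hz.2)]
    exact ⟨(i1 hz.2).2, lt_of_le_of_lt hz.1 one_half_lt_one⟩
  have hp : N ∈ 𝓝 (c.c (A.p, 1 / 4)) := by
    have h1 : {x | c.ht x < 1} ∈ 𝓝 (c.c (A.p, 1 / 4)) :=
      (isOpen_lt c.ht_cont continuous_const).mem_nhds (by
        rw [mem_setOf_eq, c.ht_c _ _ q1]; norm_num)
    filter_upwards [h1, (A.r_cont.continuousAt.comp (c.pr_cont.continuousAt h1)).eventually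
      (Iic_mem_nhds (a := 1 / 2) (by rw [Function.comp_apply, c.pr_c _ _ q1, A.r_p]; norm_num)),
      c.ht_cont.continuousAt.eventually (Icc_mem_nhds (a := 1 / 8) (b := 3 / 8)
        (by rw [c.ht_c _ _ q1]; norm_num) (by rw [c.ht_c _ _ q1]; norm_num))] with x a1 a2 a3
    exact ⟨(c.pr x, c.ht x), ⟨a2, a3⟩, c.c_pr x a1⟩
  obtain ⟨f, fc, fi, fm, f1⟩ := Abs0.compress H D (hC.image uc) hN hp (by
    rintro ⟨z, hz⟩
    have h1 := congrArg c.ht hz
    rw [← c.c_zero, c.ht_c _ _ q1, c.ht_c _ _ ⟨le_rfl, one_pos⟩] at h1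
    norm_num at h1)
  have h1 : ∀ᶠ y in 𝓝 (A.p, (1 / 4 : ℝ)), c.c y ∈ N ∧ f (c.c y) = c.c y :=
    (c.c_cont.continuousAt (prod_mem_nhds univ_mem
      (Ico_mem_nhds (by norm_num) (by norm_num)))).eventually (Eventually.and hp f1)
  obtain ⟨W, hW, W', hW', h2⟩ := mem_nhds_prod_iff.1 h1
  obtain ⟨ε, e0, e1, e2⟩ := Abs0.small A hW
  obtain ⟨η, η0, η1⟩ := nhds_basis_closedBall.mem_iff.1 hW'
  have d0 : 0 < min η (1 / 8) / 2 := half_pos (lt_min η0 (by norm_num))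
  have d1 := min_le_left η (1 / 8)
  have d2 := min_le_right η (1 / 8)
  set δ := min η (1 / 8) / 2 with hδ
  have fix : ∀ z h, A.r z ≤ ε → |h - (1 / 4 - δ)| ≤ δ → c.c (z, h) ∈ N ∧
      f (c.c (z, h)) = c.c (z, h) := fun z h a1 a2 => h2 (a := (z, h)) ⟨e2 z a1, η1 (by
    rw [mem_closedBall, Real.dist_eq, abs_le]
    constructor <;> linarith [(abs_le.1 a2).1, (abs_le.1 a2).2])⟩
  obtain ⟨F, Fc, Fi, F1, F2⟩ := Abs0.inv A e0 d0 (1 / 4 - δ)
  have m0 : ∀ x ∈ C, u x ∈ u '' C ∪ N := fun x hx => Or.inl ⟨x, hx, rfl⟩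
  have m1 : ∀ x ∈ C, A.r (c.pr (f (u x))) < 1 ∧
      (ε ≤ A.r (c.pr (f (u x))) ∨ δ ≤ |c.ht (f (u x)) - (1 / 4 - δ)|) := fun x hx => by
    obtain ⟨a1, a2⟩ := N1 _ (fm (m0 x hx))
    refine ⟨a2, by_contra fun hc => ?_⟩
    rw [not_or, not_le, not_le] at hc
    obtain ⟨-, a3⟩ := fix _ _ hc.1.le hc.2.le
    rw [c.c_pr _ a1] at a3
    have a4 := fi (Or.inr (fm (m0 x hx))) (m0 x hx) a3
    rw [a4] at hc
    linarith [u1 x, (abs_lt.1 hc.2).2]
  have m2 : ∀ x ∈ C, (F (c.pr (f (u x)), c.ht (f (u x)))).2 ∈ Ico (0 : ℝ) 1 := fun x hx => by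
    obtain ⟨-, a1, a2⟩ := F1 (_, _) (m1 x hx).1 (m1 x hx).2
    exact ⟨a1, by linarith⟩
  have c1 : ContinuousOn (fun x => f (u x)) C := fc.comp uc.continuousOn m0
  refine ⟨ε, e0, e1, fun x => c.c (F (c.pr (f (u x)), c.ht (f (u x)))),
    c.c_cont.comp (Fc.comp ((c.pr_cont.comp c1 fun x hx => (N1 _ (fm (m0 x hx))).1).prodMk
      (c.ht_cont.comp_continuousOn c1)) m1) fun x hx => ⟨trivial, m2 x hx⟩,
    fun x hx y hy h => ?_, fun x hx => ?_, fun z hz => ?_⟩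
  · have a1 := Fi (x₁ := (_, _)) (m1 x hx) (x₂ := (_, _)) (m1 y hy) (Prod.ext
      ((c.pr_c _ _ (m2 x hx)).symm.trans ((congrArg c.pr h).trans (c.pr_c _ _ (m2 y hy))))
      ((c.ht_c _ _ (m2 x hx)).symm.trans ((congrArg c.ht h).trans (c.ht_c _ _ (m2 y hy)))))
    refine ui (fi (m0 x hx) (m0 y hy) ?_)
    rw [← c.c_pr _ (N1 _ (fm (m0 x hx))).1, a1, c.c_pr _ (N1 _ (fm (m0 y hy))).1]
  · obtain ⟨a1, -, a2⟩ := F1 (_, _) (m1 x hx).1 (m1 x hx).2
    exact ⟨(c.ht_c _ _ (m2 x hx)).trans_le (by linarith), (congrArg A.r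
      (c.pr_c _ _ (m2 x hx))).trans_le a1⟩
  · have a1 := F2 z hz (by linarith)
    rw [sub_add_cancel] at a1
    simp only [u2]
    rw [(fix z (1 / 4) hz (by rw [sub_sub_cancel, abs_of_pos d0])).2, c.pr_c _ _ q1, c.ht_c _ _ q1,
      a1, c.c_zero]

end Vale.Agent.P260Z.L2
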