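import Vale.Agent.P260Z.L2.Defs

/-!
# P260, layer 2: self maps of a space that are supported in a collar
-/

noncomputable section

namespace Vale.Agent.P260Z.L2

open Set Topology

variable {G Z X : Type} [Group G] [TopologicalSpace Z] [TopologicalSpace X]
  [MulAction G Z] [MulAction G X] {j : Z → X}

namespace Collar

variable (c : Collar G j)

/-- collar coordinates -/
def co (x : X) : Z × ℝ := (c.pr x, c.ht x)

theorem co_mem {x : X} (h : c.ht x < 1) : c.co x ∈ (univ : Set Z) ×ˢ Ico (0 : ℝ) 1 :=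
  ⟨trivial, c.ht_nonneg x, h⟩

theorem co_c {y : Z × ℝ} (h : y ∈ (univ : Set Z) ×ˢ Ico (0 : ℝ) 1) : c.co (c.c y) = y :=
  Prod.ext (c.pr_c y.1 y.2 h.2) (c.ht_c y.1 y.2 h.2)

theorem c_co {x : X} (h : c.ht x < 1) : c.c (c.co x) = x := c.c_pr x h

theorem co_cont : ContinuousOn c.co {x | c.ht x < 1} :=
  c.pr_cont.prodMk c.ht_cont.continuousOn

theorem isOpen_lt (a : ℝ) : IsOpen {x | c.ht x < a} :=
  _root_.isOpen_lt c.ht_cont continuous_const

theorem c_injOn : InjOn c.c ((univ : Set Z) ×ˢ Ico (0 : ℝ) 1) := fun y hy y' hy' e => by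
  rw [← c.co_c hy, e, c.co_c hy']

theorem ht_c' {y : Z × ℝ} (h : y ∈ (univ : Set Z) ×ˢ Ico (0 : ℝ) 1) : c.ht (c.c y) = y.2 :=
  c.ht_c y.1 y.2 h.2

theorem pr_c' {y : Z × ℝ} (h : y ∈ (univ : Set Z) ×ˢ Ico (0 : ℝ) 1) : c.pr (c.c y) = y.1 :=
  c.pr_c y.1 y.2 h.2

theorem ht_j (z : Z) : c.ht (j z) = 0 := by
  rw [← c.c_zero, c.ht_c z 0 ⟨le_rfl, one_pos⟩]

theorem pr_j (z : Z) : c.pr (j z) = z := by
  rw [← c.c_zero, c.pr_c z 0 ⟨le_rfl, one_pos⟩]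

theorem co_j (z : Z) : c.co (j z) = (z, 0) := Prod.ext (c.pr_j z) (c.ht_j z)

theorem ht_eq_zero {x : X} : c.ht x = 0 ↔ x ∈ range j := by
  constructor
  · intro h
    refine ⟨c.pr x, ?_⟩
    rw [← c.c_zero, ← h, c.c_pr x (by rw [h]; exact one_pos)]
  · rintro ⟨z, rfl⟩
    exact c.ht_j z

theorem pr_smul (g : G) {x : X} (h : c.ht x < 1) : c.pr (g • x) = g • c.pr x := by
  have h1 : g • x = c.c (g • c.pr x, c.ht x) := by
    rw [c.c_smul g _ _ ⟨c.ht_nonneg x, h⟩, c.c_pr x h]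
  rw [h1, c.pr_c _ _ ⟨c.ht_nonneg x, h⟩]

/-- the collar is open below height one -/
theorem isOpen_image {U : Set (Z × ℝ)} (hU : IsOpen U) :
    IsOpen (c.c '' (U ∩ (univ : Set Z) ×ˢ Ico (0 : ℝ) 1)) := by
  have : c.c '' (U ∩ (univ : Set Z) ×ˢ Ico (0 : ℝ) 1) = {x | c.ht x < 1} ∩ c.co ⁻¹' U := by
    ext x
    constructor
    · rintro ⟨y, hy, rfl⟩
      refine ⟨?_, ?_⟩
      · show c.ht (c.c y) < 1
        rw [c.ht_c' hy.2]; exact hy.2.2.2
      · show c.co (c.c y) ∈ U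
        rw [c.co_c hy.2]; exact hy.1
    · rintro ⟨h1, h2⟩
      exact ⟨c.co x, ⟨h2, c.co_mem h1⟩, c.c_co h1⟩
  rw [this]
  exact c.co_cont.isOpen_inter_preimage (c.isOpen_lt 1) hU

open Classical in
/-- the self map of `X` given by `F` in collar coordinates -/
def cm (F : Z × ℝ → Z × ℝ) (x : X) : X := if c.ht x < 1 then c.c (F (c.co x)) else x

theorem cm_of_lt (F : Z × ℝ → Z × ℝ) {x : X} (h : c.ht x < 1) :
    c.cm F x = c.c (F (c.co x)) := if_pos h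

theorem cm_c (F : Z × ℝ → Z × ℝ) {y : Z × ℝ} (h : y ∈ (univ : Set Z) ×ˢ Ico (0 : ℝ) 1) :
    c.cm F (c.c y) = c.c (F y) := by
  rw [c.cm_of_lt F (by rw [c.ht_c' h]; exact h.2.2), c.co_c h]

theorem cm_j (F : Z × ℝ → Z × ℝ) (z : Z) : c.cm F (j z) = c.c (F (z, 0)) := by
  rw [← c.c_zero, c.cm_c F ⟨trivial, le_rfl, one_pos⟩]

theorem cm_of_ge {F : Z × ℝ → Z × ℝ} (hid : ∀ y : Z × ℝ, 1 / 2 ≤ y.2 → F y = y) {x : X}
    (h : 1 / 2 ≤ c.ht x) : c.cm F x = x := by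
  by_cases h1 : c.ht x < 1
  · rw [c.cm_of_lt F h1, hid _ h, c.c_co h1]
  · exact if_neg h1

theorem cm_of_fix {F : Z × ℝ → Z × ℝ} {x : X} (h : F (c.co x) = c.co x) : c.cm F x = x := by
  by_cases h1 : c.ht x < 1
  · rw [c.cm_of_lt F h1, h, c.c_co h1]
  · exact if_neg h1

theorem cm_cont {F : Z × ℝ → Z × ℝ} (hc : ContinuousOn F ((univ : Set Z) ×ˢ Ico (0 : ℝ) 1))
    (hm : MapsTo F ((univ : Set Z) ×ˢ Ico (0 : ℝ) 1) ((univ : Set Z) ×ˢ Ico (0 : ℝ) 1))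
    (hid : ∀ y : Z × ℝ, 1 / 2 ≤ y.2 → F y = y) : Continuous (c.cm F) := by
  rw [continuous_iff_continuousAt]
  intro x
  by_cases h1 : c.ht x < 1
  · have h2 : ContinuousOn (c.c ∘ F ∘ c.co) {x | c.ht x < 1} :=
      c.c_cont.comp (hc.comp c.co_cont fun y hy => c.co_mem hy) fun y hy => hm (c.co_mem hy)
    exact (h2.congr fun y hy => c.cm_of_lt F hy).continuousAt ((c.isOpen_lt 1).mem_nhds h1)
  · have h2 : {x | 1 / 2 < c.ht x} ∈ 𝓝 x :=
      (_root_.isOpen_lt continuous_const c.ht_cont).mem_nhds (by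
        show 1 / 2 < c.ht x
        linarith [not_lt.1 h1])
    refine continuousAt_id.congr ?_
    filter_upwards [h2] with y hy
    exact (c.cm_of_ge hid (le_of_lt hy)).symm

theorem cm_inj {F : Z × ℝ → Z × ℝ} (hi : InjOn F ((univ : Set Z) ×ˢ Ico (0 : ℝ) 1))
    (hm : MapsTo F ((univ : Set Z) ×ˢ Ico (0 : ℝ) 1) ((univ : Set Z) ×ˢ Ico (0 : ℝ) 1)) :
    Function.Injective (c.cm F) := by
  have key : ∀ x y, c.ht x < 1 → ¬ c.ht y < 1 → c.cm F x ≠ c.cm F y := by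
    intro x y hx hy e
    rw [c.cm_of_lt F hx, cm, if_neg hy] at e
    apply hy
    rw [← e, c.ht_c' (hm (c.co_mem hx))]
    exact (hm (c.co_mem hx)).2.2
  intro x y e
  by_cases hx : c.ht x < 1 <;> by_cases hy : c.ht y < 1
  · rw [c.cm_of_lt F hx, c.cm_of_lt F hy] at e
    have := hi (c.co_mem hx) (c.co_mem hy)
      (c.c_injOn (hm (c.co_mem hx)) (hm (c.co_mem hy)) e)
    rw [← c.c_co hx, this, c.c_co hy]
  · exact absurd e (key x y hx hy)
  · exact absurd e.symm (key y x hy hx)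
  · rwa [cm, cm, if_neg hx, if_neg hy] at e

end Collar

/-- the inverse of a continuous injection on a compact set -/
theorem exists_inv_on {A B : Type} [TopologicalSpace A] [TopologicalSpace B] [T2Space B]
    [Nonempty A] {C : Set A} (hC : IsCompact C) {f : A → B} (hc : ContinuousOn f C)
    (hi : InjOn f C) : ∃ g : B → A, ContinuousOn g (f '' C) ∧ ∀ x ∈ C, g (f x) = x := by
  refine ⟨Function.invFunOn f C, ?_, fun x hx => hi.leftInvOn_invFunOn hx⟩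
  rw [continuousOn_iff_isClosed]
  intro t ht
  refine ⟨f '' (C ∩ t), ((hC.inter_right ht).image_of_continuousOn
    (hc.mono inter_subset_left)).isClosed, ?_⟩
  ext y
  constructor
  · rintro ⟨h1, x, hx, rfl⟩
    have h2 : Function.invFunOn f C (f x) ∈ t := h1
    rw [hi.leftInvOn_invFunOn hx] at h2
    exact ⟨⟨x, ⟨hx, h2⟩, rfl⟩, x, hx, rfl⟩
  · rintro ⟨⟨x, hx, rfl⟩, h⟩
    refine ⟨?_, h⟩
    show Function.invFunOn f C (f x) ∈ t
    rw [hi.leftInvOn_invFunOn hx.1]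
    exact hx.2

namespace ConeAt

variable (A : ConeAt Z)

/-- small cones lie in any neighbourhood of the cone point -/
theorem exists_small {N : Set Z} (hN : IsOpen N) (hp : A.p ∈ N) :
    ∃ ρ, 0 < ρ ∧ ρ < 1 / 2 ∧ ∀ z, A.r z ≤ ρ → z ∈ N := by
  have hK : IsCompact ({z | A.r z ≤ 1 / 2} \ N) := (A.cpt _ (by norm_num)).diff hN
  rcases ({z | A.r z ≤ 1 / 2} \ N).eq_empty_or_nonempty with h | h
  · refine ⟨1 / 4, by norm_num, by norm_num, fun z hz => ?_⟩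
    by_contra hzN
    have : z ∈ {z | A.r z ≤ 1 / 2} \ N := ⟨le_trans hz (by norm_num), hzN⟩
    rw [h] at this
    exact this
  · obtain ⟨z₀, hz₀, hmin⟩ := hK.exists_isMinOn h A.r_cont.continuousOn
    have h0 : 0 < A.r z₀ := lt_of_le_of_ne (A.r_nonneg _) fun e =>
      hz₀.2 (A.eq_p z₀ e.symm ▸ hp)
    have h1 : A.r z₀ ≤ 1 / 2 := hz₀.1
    refine ⟨A.r z₀ / 2, by linarith, by linarith, fun z hz => ?_⟩
    by_contra hzN
    have h2 : A.r z₀ ≤ A.r z := hmin ⟨show A.r z ≤ 1 / 2 by linarith, hzN⟩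
    linarith

theorem ctr_inv {μ : ℝ} {z : Z} (h0 : 0 < μ) (hz : A.r z < 1) (h : μ * A.r z < 1) :
    A.ctr μ⁻¹ (A.ctr μ z) = z := by
  rw [A.ctr_ctr _ _ _ (inv_nonneg.2 h0.le) h0.le hz h (by rwa [inv_mul_cancel₀ h0.ne', one_mul]),
    inv_mul_cancel₀ h0.ne', A.ctr_one z hz]

theorem ctr_inj {μ : ℝ} {z z' : Z} (h0 : 0 < μ) (hz : A.r z < 1) (h : μ * A.r z < 1)
    (hz' : A.r z' < 1) (h' : μ * A.r z' < 1) (e : A.ctr μ z = A.ctr μ z') : z = z' := by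
  rw [← A.ctr_inv h0 hz h, e, A.ctr_inv h0 hz' h']

end ConeAt

end Vale.Agent.P260Z.L2
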