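import Vale.Agent.P260Z.L2.ColA

/-!
# P260, layer 2: the equivariant collaring theorem
-/

set_option linter.unusedSectionVars false

noncomputable section

namespace Vale.Agent.P260Z.L2

open Set Topology

namespace Col

variable {G Z X : Type} [Group G] [TopologicalSpace Z] [TopologicalSpace X]
  [MulAction G Z] [MulAction G X] [T2Space X] [LocallyCompactSpace X] [ContinuousConstSMul G X]
  [ProperlyDiscontinuousSMul G X] {j : Z → X}

theorem locallyFinite_pre {K : Set X} (hK : IsCompact K) :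
    LocallyFinite fun γ : G => (γ • ·) ⁻¹' K := by
  intro x
  obtain ⟨V, hV, hx⟩ := exists_compact_mem_nhds x
  refine ⟨V, hx, (finite_disjoint_inter_image (Γ := G) hV hK).subset ?_⟩
  rintro γ ⟨y, h1, h2⟩
  exact ⟨γ • y, ⟨y, h2, rfl⟩, h1⟩

theorem isClosed_sat {K : Set X} (hK : IsCompact K) : IsClosed {x | ∃ γ : G, γ • x ∈ K} := by
  have := (locallyFinite_pre (G := G) hK).isClosed_iUnion fun γ =>
    hK.isClosed.preimage (continuous_const_smul γ)
  have e : {x | ∃ γ : G, γ • x ∈ K} = ⋃ γ : G, (γ • ·) ⁻¹' K := by ext x; simp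
  rwa [e]

theorem act_cont (γ : G) : Continuous (act γ : X × ℝ → X × ℝ) :=
  ((continuous_const_smul γ).comp continuous_fst).prodMk continuous_snd

theorem smul_mem (hs : ∀ (g : G) z, j (g • z) = g • j z) (γ : G) {x : X} (h : x ∈ range j) :
    γ • x ∈ range j := by
  obtain ⟨z, rfl⟩ := h
  exact ⟨γ • z, hs γ z⟩

theorem act_XI (hs : ∀ (g : G) z, j (g • z) = g • j z) (γ : G) {y : X × ℝ} (h : y ∈ XI j) :
    act γ y ∈ XI j := h.imp id fun h => ⟨smul_mem hs γ h.1, h.2⟩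

namespace Ch

variable (C : Ch G j) {a b : X → ℝ}

open Classical in
/-- the move, made equivariant -/
def zz (a b : X → ℝ) (y : X × ℝ) : X × ℝ :=
  if h : ∃ γ : G, γ • y.1 ∈ C.O then act h.choose⁻¹ (C.z0 a b (act h.choose y)) else y

theorem uniq {γ γ' : G} {x : X} (h : γ • x ∈ C.O) (h' : γ' • x ∈ C.O) : γ' = γ := by
  have := C.disj (γ' * γ⁻¹) _ h (by rwa [smul_smul, inv_mul_cancel_right])
  exact mul_inv_eq_one.1 this

theorem zz_eq {γ : G} {y : X × ℝ} (h : γ • y.1 ∈ C.O) :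
    C.zz a b y = act γ⁻¹ (C.z0 a b (act γ y)) := by
  have h' : ∃ γ : G, γ • y.1 ∈ C.O := ⟨γ, h⟩
  rw [zz, dif_pos h', C.uniq h h'.choose_spec]

theorem zz_not {y : X × ℝ} (h : ¬ ∃ γ : G, γ • y.1 ∈ C.O) : C.zz a b y = y := dif_neg h

variable (hs : ∀ (g : G) z, j (g • z) = g • j z)
include hs

theorem zz_fix (hab : ∀ x ∈ range j, a x ≠ b x → ∃ γ : G, γ • x ∈ C.K) {y : X × ℝ}
    (hy : y ∈ XI j) (hK : ¬ ∃ γ : G, γ • y.1 ∈ C.K) : C.zz a b y = y := by
  by_cases h : ∃ γ : G, γ • y.1 ∈ C.O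
  · obtain ⟨γ, h⟩ := h
    rw [C.zz_eq h, C.z0_fix hab (act_XI hs γ hy) h fun h' => hK ⟨γ, h'⟩, act_act, inv_mul_cancel,
      act_one]
  · exact C.zz_not h

theorem zz_cont (ha : ∀ x, 0 ≤ a x) (hb : ∀ x, 0 ≤ b x) (ca : Continuous a) (cb : Continuous b)
    (hab : ∀ x ∈ range j, a x ≠ b x → ∃ γ : G, γ • x ∈ C.K) : ContinuousOn (C.zz a b) (XI j) := by
  intro y hy
  by_cases h : ∃ γ : G, γ • y.1 ∈ C.O
  · obtain ⟨γ, h⟩ := h
    have ho : IsOpen {y : X × ℝ | γ • y.1 ∈ C.O} :=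
      C.oO.preimage ((continuous_const_smul γ).comp continuous_fst)
    have h1 : ContinuousOn (fun y => act γ⁻¹ (C.z0 a b (act γ y)))
        (XI j ∩ {y : X × ℝ | γ • y.1 ∈ C.O}) :=
      (act_cont γ⁻¹).comp_continuousOn ((C.z0_cont ha hb ca cb).comp (act_cont γ).continuousOn
        fun y hy => ⟨act_XI hs γ hy.1, hy.2⟩)
    exact (continuousWithinAt_inter (ho.mem_nhds h)).1
      ((h1.congr fun y hy => C.zz_eq hy.2) y ⟨hy, h⟩)
  · have ho : IsOpen {y : X × ℝ | ¬ ∃ γ : G, γ • y.1 ∈ C.K} :=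
      ((isClosed_sat C.K_compact).preimage continuous_fst).isOpen_compl
    have h' : ¬ ∃ γ : G, γ • y.1 ∈ C.K := fun ⟨γ, h1⟩ => h ⟨γ, C.K_sub h1⟩
    have h1 : ContinuousOn (C.zz a b) (XI j ∩ {y : X × ℝ | ¬ ∃ γ : G, γ • y.1 ∈ C.K}) :=
      continuousOn_id.congr fun y hy => C.zz_fix hs hab hy.1 hy.2
    exact (continuousWithinAt_inter (ho.mem_nhds h')).1 (h1 y ⟨hy, h'⟩)

theorem zz_map : MapsTo (C.zz a b) (XI j) (XI j) := by
  intro y hy
  by_cases h : ∃ γ : G, γ • y.1 ∈ C.O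
  · obtain ⟨γ, h⟩ := h
    rw [C.zz_eq h]
    exact act_XI hs _ (C.z0_XI (y := act γ y) h)
  · rwa [C.zz_not h]

theorem zz_zz (ha : ∀ x, 0 ≤ a x) (hb : ∀ x, 0 ≤ b x) {y : X × ℝ} (hy : y ∈ XI j) :
    C.zz b a (C.zz a b y) = y := by
  by_cases h : ∃ γ : G, γ • y.1 ∈ C.O
  · obtain ⟨γ, h⟩ := h
    have h1 := C.z0_O ha hb (act_XI hs γ hy) h
    rw [C.zz_eq h, C.zz_eq (γ := γ) (by simpa [act] using h1), act_act, mul_inv_cancel, act_one,
      C.z0_z0 ha hb (act_XI hs γ hy) h, act_act, inv_mul_cancel, act_one]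
  · rw [C.zz_not h, C.zz_not h]

omit hs in
theorem zz_act (g : G) (y : X × ℝ) : C.zz a b (act g y) = act g (C.zz a b y) := by
  by_cases h : ∃ γ : G, γ • y.1 ∈ C.O
  · obtain ⟨γ, h⟩ := h
    rw [C.zz_eq h, C.zz_eq (γ := γ * g⁻¹) (by simpa [act, mul_smul] using h), act_act, act_act,
      inv_mul_cancel_right, mul_inv_rev, inv_inv]
  · rw [C.zz_not h, C.zz_not]
    rintro ⟨γ, h'⟩
    exact h ⟨γ * g, by rwa [mul_smul]⟩

/-- the step -/
def mv (ha : ∀ x, 0 ≤ a x) (hb : ∀ x, 0 ≤ b x) (ca : Continuous a) (cb : Continuous b)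
    (ia : ∀ (γ : G) x, a (γ • x) = a x) (ib : ∀ (γ : G) x, b (γ • x) = b x)
    (hab : ∀ x ∈ range j, a x ≠ b x → ∃ γ : G, γ • x ∈ C.K) : Mv G j a b where
  f := C.zz a b
  g := C.zz b a
  f_cont := C.zz_cont hs ha hb ca cb hab
  g_cont := C.zz_cont hs hb ha cb ca fun x hx h => hab x hx h.symm
  f_map := C.zz_map hs
  g_map := C.zz_map hs
  gf _ hy := C.zz_zz hs ha hb hy
  fg _ hy := C.zz_zz hs hb ha hy
  f_act γ y _ := C.zz_act γ y
  f_le y hy := by
    by_cases h : ∃ γ : G, γ • y.1 ∈ C.O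
    · obtain ⟨γ, h⟩ := h
      have := C.z0_le ha hb (act_XI hs γ hy) h
      rw [C.zz_eq h]
      simpa [act, ia, ib] using this
    · rw [C.zz_not h]
      rcases hy with hy | ⟨hy, -⟩
      · have h1 := ha y.1
        have h2 := hb y.1
        rw [hy]
        constructor <;> intro _ <;> linarith
      · have : a y.1 = b y.1 := by
          by_contra e
          obtain ⟨γ, h1⟩ := hab _ hy e
          exact h ⟨γ, C.K_sub h1⟩
        rw [this]
  f_bd x hx := by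
    by_cases h : ∃ γ : G, γ • x ∈ C.O
    · obtain ⟨γ, h⟩ := h
      have h1 := C.z0_bd ha hb h (smul_mem hs γ hx)
      rw [ia, ib] at h1
      rw [C.zz_eq (y := (x, -a x)) h]
      show act γ⁻¹ (C.z0 a b (γ • x, -a x)) = _
      rw [h1]
      simp [act]
    · rw [C.zz_not (y := (x, -a x)) h]
      have : a x = b x := by
        by_contra e
        obtain ⟨γ, h1⟩ := hab _ hx e
        exact h ⟨γ, C.K_sub h1⟩
      rw [this]

end Ch

/-- product charts exist -/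
theorem exists_ch (free : ∀ (g : G) (x : X), g • x = x → g = 1) (H : HS j) {x : X}
    (hx : x ∈ range j) : ∃ C : Ch G j, x ∈ C.O ∧ C.T ∈ 𝓝 (C.φ x).1 := by
  obtain ⟨O, N, φ, ψ, oO, oN, hxO, cφ, cψ, mφ, mψ, ψφ, φψ, bd⟩ := H x
  obtain ⟨W, hW, hd⟩ := ProperlyDiscontinuousSMul.exists_nhds_image_smul_eq_self G x
  have h0 : (φ x).2 = 0 := (bd x hxO).1 hx
  have h1 : ψ ⁻¹' W ∈ 𝓝[N ∩ Hs] (φ x) := cψ _ (mφ hxO) (by rwa [ψφ x hxO])
  obtain ⟨N', hN', hsub⟩ := mem_nhdsWithin_iff_exists_mem_nhds_inter.1 h1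
  have h2 : N' ∩ N ∈ 𝓝 ((φ x).1, (0 : ℝ)) := by
    rw [← h0]; exact Filter.inter_mem hN' (oN.mem_nhds (mφ hxO).1)
  obtain ⟨U, hU, I, hI, hUI⟩ := mem_nhds_prod_iff.1 h2
  obtain ⟨η, hη, hb⟩ := Metric.mem_nhds_iff.1 hI
  obtain ⟨T, hT, hTU, cT⟩ := local_compact_nhds (interior_mem_nhds.2 hU)
  have hin : interior U ×ˢ Ico 0 η ⊆ (N' ∩ N) ∩ Hs := fun v hv =>
    ⟨hUI ⟨interior_subset hv.1, hb (by
      rw [Metric.mem_ball, Real.dist_eq, sub_zero, abs_of_nonneg hv.2.1]; exact hv.2.2)⟩, hv.2.1⟩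
  have hin' : interior U ×ˢ Ico 0 η ⊆ N ∩ Hs := fun v hv => ⟨(hin hv).1.2, (hin hv).2⟩
  have hW' : ∀ y ∈ O ∩ φ ⁻¹' (interior U ×ˢ Iio η), y ∈ W := by
    intro y hy
    have h3 : φ y ∈ interior U ×ˢ Ico 0 η := ⟨hy.2.1, (mφ hy.1).2, hy.2.2⟩
    have h4 : ψ (φ y) ∈ W := hsub ⟨(hin h3).1.1, hin' h3⟩
    rwa [ψφ y hy.1] at h4
  refine ⟨⟨O ∩ φ ⁻¹' (interior U ×ˢ Iio η), interior U, T, η, φ, ψ,
    cφ.isOpen_inter_preimage oO (isOpen_interior.prod isOpen_Iio), cT, hTU, hη,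
    cφ.mono inter_subset_left, cψ.mono hin', fun y hy => ⟨hy.2.1, (mφ hy.1).2, hy.2.2⟩,
    fun v hv => ⟨mψ (hin' hv), ?_⟩, fun y hy => ψφ y hy.1, fun v hv => φψ v (hin' hv),
    fun y hy => bd y hy.1, fun γ y h1 h2 =>
      free γ x (hd γ ⟨γ • y, ⟨y, hW' y h1, rfl⟩, hW' _ h2⟩)⟩, ⟨hxO, ?_, ?_⟩, hT⟩
  · show φ (ψ v) ∈ interior U ×ˢ Iio η
    rw [φψ v (hin' hv)]
    exact ⟨hv.1, hv.2.2⟩
  · exact mem_interior_iff_mem_nhds.2 hU
  · show (φ x).2 < η
    rwa [h0]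

/-- invariant bump functions with their steps -/
theorem exists_bump (free : ∀ (g : G) (x : X), g • x = x → g = 1)
    (hs : ∀ (g : G) z, j (g • z) = g • j z) (H : HS j) {x : X}
    (hx : x ∈ range j) : ∃ (C : Ch G j) (F : X → ℝ), Continuous F ∧ (∀ y, 0 ≤ F y) ∧
      (∀ y, F y ≤ 1) ∧ (∀ (γ : G) y, F (γ • y) = F y) ∧ (∀ᶠ y in 𝓝 x, F y = 1) ∧
      ∀ y ∈ range j, F y ≠ 0 → ∃ γ : G, γ • y ∈ C.K := by
  obtain ⟨C, hO, hT⟩ := exists_ch free H hx
  have ho : IsOpen (C.O ∩ C.φ ⁻¹' (interior C.T ×ˢ univ)) :=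
    C.φ_cont.isOpen_inter_preimage C.oO (isOpen_interior.prod isOpen_univ)
  obtain ⟨W, hW, hWs, cW⟩ := local_compact_nhds
    (ho.mem_nhds ⟨hO, mem_interior_iff_mem_nhds.2 hT, trivial⟩)
  obtain ⟨f, f1, f0, fc, fI⟩ := exists_continuous_one_zero_of_isCompact cW ho.isClosed_compl
    (disjoint_compl_right_iff_subset.2 hWs)
  have hne : ∀ y, f y ≠ 0 → y ∈ C.O ∩ C.φ ⁻¹' (interior C.T ×ˢ univ) := fun y h => by
    by_contra h'
    exact h (f0 h')
  have single : ∀ (γ : G) y, γ • y ∈ C.O → ∑ᶠ g : G, f (g • y) = f (γ • y) := fun γ y h =>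
    finsum_eq_single _ γ fun g hg => by
      by_contra h'
      exact hg (C.uniq h (hne _ h').1)
  have zero : ∀ y, (¬ ∃ γ : G, f (γ • y) ≠ 0) → ∑ᶠ g : G, f (g • y) = 0 := fun y h =>
    finsum_eq_zero_of_forall_eq_zero fun g => by
      by_contra h'
      exact h ⟨g, h'⟩
  refine ⟨C, fun y => ∑ᶠ g : G, f (g • y), ?_, fun y => finsum_nonneg fun g => (fI _).1,
    fun y => ?_, fun γ y => ?_, ?_, fun y hy h => ?_⟩
  · refine continuous_finsum (fun g => f.continuous.comp (continuous_const_smul g))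
      ((locallyFinite_pre (G := G) fc.isCompact).subset fun g y hy => subset_tsupport _ hy)
  · by_cases h : ∃ γ : G, f (γ • y) ≠ 0
    · obtain ⟨γ, h⟩ := h
      exact (single γ y (hne _ h).1).trans_le (fI _).2
    · exact (zero y h).trans_le zero_le_one
  · simp only [← mul_smul]
    exact finsum_comp_equiv (Equiv.mulRight γ) (f := fun g => f (g • y))
  · filter_upwards [hW] with y hy
    rw [single 1 y (by rw [one_smul]; exact (hWs hy).1), one_smul]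
    exact f1 hy
  · have h1 : ∃ γ : G, f (γ • y) ≠ 0 := by
      by_contra h'
      exact h (zero y h')
    obtain ⟨γ, h1⟩ := h1
    obtain ⟨h2, h3, -⟩ := hne _ h1
    have h4 := (C.bd _ h2).1 (smul_mem hs γ hy)
    refine ⟨γ, C.φ (γ • y), ⟨interior_subset h3, h4.ge, ?_⟩, C.ψφ _ h2⟩
    rw [h4]
    exact (half_pos C.pos).le

theorem exists_mv (free : ∀ (g : G) (x : X), g • x = x → g = 1)
    (hj : Continuous j) (hs : ∀ (g : G) z, j (g • z) = g • j z)
    (hc : ∃ C : Set Z, IsCompact C ∧ ∀ z : Z, ∃ g : G, g • z ∈ C) (H : HS j) :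
    ∃ a : X → ℝ, (∀ x ∈ range j, a x = 1) ∧ (∀ x, a x ≤ 1) ∧ Nonempty (Mv G j 0 a) := by
  classical
  obtain ⟨D, hD, hDc⟩ := hc
  choose C F cF F0 F1 iF nF sF using fun z : Z => exists_bump free hs H (mem_range_self (f := j) z)
  have key : ∀ t : Finset Z, ∃ a : X → ℝ, Continuous a ∧ (∀ x, 0 ≤ a x) ∧ (∀ x, a x ≤ 1) ∧
      (∀ (γ : G) x, a (γ • x) = a x) ∧ (∀ z ∈ t, ∀ x, F z x ≤ a x) ∧ Nonempty (Mv G j 0 a) := by
    intro t
    induction t using Finset.induction_on with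
    | empty =>
      exact ⟨0, continuous_const, fun _ => le_rfl, fun _ => zero_le_one, fun _ _ => rfl,
        fun z hz => absurd hz (Finset.notMem_empty z), ⟨Mv.refl j 0⟩⟩
    | insert z t _ ih =>
      obtain ⟨a, ca, a0, a1, ia, ha, ⟨m⟩⟩ := ih
      refine ⟨fun x => max (a x) (F z x), ca.max (cF z), fun x => le_max_of_le_left (a0 x),
        fun x => max_le (a1 x) (F1 z x), fun γ x => by simp only [ia, iF], fun z' hz' x => ?_,
        ⟨m.trans ((C z).mv hs a0 (fun x => le_max_of_le_left (a0 x)) ca (ca.max (cF z)) ia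
          (fun γ x => by simp only [ia, iF]) fun x hx h => sF z x hx fun e => h ?_)⟩⟩
      · rcases Finset.mem_insert.1 hz' with rfl | hz'
        · exact le_max_right _ _
        · exact le_max_of_le_left (ha z' hz' x)
      · show a x = max (a x) (F z x)
        rw [e, max_eq_left (a0 x)]
  obtain ⟨t, -, ht⟩ := hD.elim_nhds_subcover (fun z => {z' | F z (j z') = 1})
    fun z _ => hj.continuousAt (nF z)
  obtain ⟨a, -, -, a1, ia, ha, hm⟩ := key t
  refine ⟨a, ?_, a1, hm⟩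
  rintro _ ⟨z, rfl⟩
  obtain ⟨g, hg⟩ := hDc z
  obtain ⟨z', hz', h⟩ := mem_iUnion₂.1 (ht hg)
  have h1 : F z' (j (g • z)) = 1 := h
  rw [← ia g, ← hs]
  exact le_antisymm (a1 _) (h1 ▸ ha z' hz' _)

end Col

open Col

variable {G Z X : Type} [Group G] [TopologicalSpace Z] [TopologicalSpace X]
  [MulAction G Z] [MulAction G X]

theorem exists_collar [T2Space X] [LocallyCompactSpace X] [ContinuousConstSMul G X]
    [ProperlyDiscontinuousSMul G X] (free : ∀ (g : G) (x : X), g • x = x → g = 1)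
    {j : Z → X} (hj : IsClosedEmbedding j) (hs : ∀ (g : G) z, j (g • z) = g • j z)
    (hc : ∃ C : Set Z, IsCompact C ∧ ∀ z : Z, ∃ g : G, g • z ∈ C) (H : HS j) [Nonempty Z] :
    Nonempty (Collar G j) := by
  obtain ⟨a, ha, -, ⟨m⟩⟩ := exists_mv free hj.continuous hs hc H
  have x0 : ∀ x : X, (x, (0 : ℝ)) ∈ XI j := fun x => Or.inl rfl
  have jm : ∀ z, ∀ h < (1 : ℝ), (j z, h - 1) ∈ XI j := fun z h hh =>
    Or.inr ⟨mem_range_self z, by show h - 1 ≤ 0; linarith⟩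
  have cf : Continuous fun x : X => m.f (x, 0) :=
    m.f_cont.comp_continuous (continuous_id.prodMk continuous_const) x0
  have g0 : ∀ z, ∀ h ∈ Ico (0 : ℝ) 1, ((m.g (j z, h - 1)).1, (0 : ℝ)) = m.g (j z, h - 1) := by
    intro z h hh
    have h1 := m.g_map (jm z h hh.2)
    have h2 := (m.f_le _ h1).2 (by
      rw [m.fg _ (jm z h hh.2)]
      show -a (j z) ≤ h - 1
      rw [ha _ (mem_range_self z)]
      linarith [hh.1])
    refine Prod.ext rfl (le_antisymm ?_ (XI.le h1))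
    simpa using h2
  have fc : ∀ z, ∀ h ∈ Ico (0 : ℝ) 1, m.f ((m.g (j z, h - 1)).1, 0) = (j z, h - 1) :=
    fun z h hh => by rw [g0 z h hh, m.fg _ (jm z h hh.2)]
  have rng : ∀ x, 1 + (m.f (x, 0)).2 < 1 → (m.f (x, 0)).1 ∈ range j := by
    intro x hx
    rcases m.f_map (x0 x) with h | h
    · rw [h] at hx; simp at hx
    · exact h.1
  have linv : ∀ z, Function.invFun j (j z) = z := Function.leftInverse_invFun hj.injective
  refine ⟨⟨fun y => (m.g (j y.1, y.2 - 1)).1, fun x => Function.invFun j (m.f (x, 0)).1,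
    fun x => 1 + (m.f (x, 0)).2, ?_, continuous_const.add cf.snd, ?_, fun x => ?_,
    fun z h hh => ?_, fun z h hh => ?_, fun x hx => ?_, fun z => ?_, fun g z h hh => ?_,
    fun g x => ?_⟩⟩
  · exact (m.g_cont.comp ((hj.continuous.comp continuous_fst).prodMk
      (continuous_snd.sub continuous_const)).continuousOn fun y hy => jm _ _ hy.2.2).fst
  · rw [hj.isInducing.continuousOn_iff]
    exact cf.fst.continuousOn.congr fun x hx => Function.invFun_eq (rng x hx)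
  · have h1 := (m.f_le _ (x0 x)).1 (by simp)
    rcases m.f_map (x0 x) with h | h
    · show 0 ≤ 1 + (m.f (x, 0)).2
      rw [h]; norm_num
    · rw [ha _ h.1] at h1
      show 0 ≤ 1 + (m.f (x, 0)).2
      linarith
  · show Function.invFun j (m.f ((m.g (j z, h - 1)).1, 0)).1 = z
    rw [fc z h hh, linv]
  · show 1 + (m.f ((m.g (j z, h - 1)).1, 0)).2 = h
    rw [fc z h hh]; ring
  · show (m.g (j (Function.invFun j (m.f (x, 0)).1), 1 + (m.f (x, 0)).2 - 1)).1 = x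
    rw [Function.invFun_eq (rng x hx), add_sub_cancel_left, Prod.mk.eta, m.gf _ (x0 x)]
  · show (m.g (j z, 0 - 1)).1 = j z
    have h1 := m.f_bd _ (mem_range_self z)
    rw [ha _ (mem_range_self z), Pi.zero_apply, neg_zero] at h1
    rw [zero_sub, ← h1, m.gf _ (x0 _)]
  · show (m.g (j (g • z), h - 1)).1 = g • (m.g (j z, h - 1)).1
    have h1 := m.f_act g _ (m.g_map (jm z h hh.2))
    rw [m.fg _ (jm z h hh.2)] at h1
    have h2 : (j (g • z), h - 1) = act g (j z, h - 1) := by rw [hs]; rfl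
    rw [h2, ← h1, m.gf _ (act_XI hs g (m.g_map (jm z h hh.2)))]
    rfl
  · show 1 + (m.f (g • x, 0)).2 = 1 + (m.f (x, 0)).2
    have h1 : m.f (g • x, 0) = act g (m.f (x, 0)) := m.f_act g _ (x0 x)
    rw [h1]
    rfl

end Vale.Agent.P260Z.L2
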