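import Vale.Agent.P260Z.L2.Cm

/-!
# P260, layer 2: the step of the collaring theorem
-/

set_option linter.unusedSectionVars false

noncomputable section

namespace Vale.Agent.P260Z.L2

open Set Topology

namespace Col

/-- the stretch of the line that takes `-α` to `-β` and is the identity above `η / 2` -/
def el (η α β s : ℝ) : ℝ := s - max (η / 2 - s) 0 * ((β - α) / (η / 2 + α))

section
variable {η α β s : ℝ}

theorem el_of_ge (h : η / 2 ≤ s) : el η α β s = s := by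
  rw [el, max_eq_right (by linarith), zero_mul, sub_zero]

theorem el_self : el η α α s = s := by rw [el, sub_self, zero_div, mul_zero, sub_zero]

theorem el_of_le (hη : 0 < η) (hα : 0 ≤ α) (h : s ≤ η / 2) :
    η / 2 - el η α β s = (η / 2 - s) * ((η / 2 + β) / (η / 2 + α)) := by
  have : 0 < η / 2 + α := by linarith
  rw [el, max_eq_left (by linarith)]
  field_simp
  ring

theorem el_le (hη : 0 < η) (hα : 0 ≤ α) (hβ : 0 ≤ β) (h : s ≤ η / 2) : el η α β s ≤ η / 2 := by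
  have h1 := el_of_le (β := β) hη hα h
  have h2 : 0 ≤ (η / 2 - s) * ((η / 2 + β) / (η / 2 + α)) :=
    mul_nonneg (by linarith) (by positivity)
  linarith

theorem el_lt (hη : 0 < η) (hα : 0 ≤ α) (hβ : 0 ≤ β) (h : s < η) : el η α β s < η := by
  rcases le_total s (η / 2) with h1 | h1
  · linarith [el_le hη hα hβ h1]
  · rwa [el_of_ge h1]

theorem el_el (hη : 0 < η) (hα : 0 ≤ α) (hβ : 0 ≤ β) : el η β α (el η α β s) = s := by
  rcases le_total s (η / 2) with h1 | h1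
  · have h2 := el_of_le (β := α) hη hβ (el_le hη hα hβ h1)
    rw [el_of_le hη hα h1] at h2
    have h3 : 0 < η / 2 + α := by linarith
    have h4 : 0 < η / 2 + β := by linarith
    have h5 : (η / 2 - s) * ((η / 2 + β) / (η / 2 + α)) * ((η / 2 + α) / (η / 2 + β)) =
        η / 2 - s := by field_simp
    linarith
  · rw [el_of_ge h1, el_of_ge h1]

theorem el_neg (hη : 0 < η) (hα : 0 ≤ α) : el η α β (-α) = -β := by
  have h1 := el_of_le (β := β) (s := -α) hη hα (by linarith)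
  have h3 : 0 < η / 2 + α := by linarith
  have h5 : (η / 2 - -α) * ((η / 2 + β) / (η / 2 + α)) = η / 2 + β := by
    rw [sub_neg_eq_add]; field_simp
  linarith

theorem le_el (hη : 0 < η) (hα : 0 ≤ α) (hβ : 0 ≤ β) (h : -α ≤ s) : -β ≤ el η α β s := by
  rcases le_total s (η / 2) with h1 | h1
  · have h2 := el_of_le (β := β) hη hα h1
    have h3 : 0 < η / 2 + α := by linarith
    have h4 : (η / 2 - s) * ((η / 2 + β) / (η / 2 + α)) ≤
        (η / 2 + α) * ((η / 2 + β) / (η / 2 + α)) :=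
      mul_le_mul_of_nonneg_right (by linarith) (by positivity)
    have h5 : (η / 2 + α) * ((η / 2 + β) / (η / 2 + α)) = η / 2 + β := by field_simp
    linarith
  · rw [el_of_ge h1]; linarith

theorem le_el_iff (hη : 0 < η) (hα : 0 ≤ α) (hβ : 0 ≤ β) : -α ≤ s ↔ -β ≤ el η α β s :=
  ⟨le_el hη hα hβ, fun h => by have := le_el hη hβ hα h; rwa [el_el hη hα hβ] at this⟩

end

variable {G Z X : Type} [Group G] [TopologicalSpace X] [MulAction G X]

/-- the space with an infinite external collar -/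
def XI (j : Z → X) : Set (X × ℝ) := {y | y.2 = 0 ∨ (y.1 ∈ range j ∧ y.2 ≤ 0)}

/-- the action on the product with the line -/
def act (g : G) (y : X × ℝ) : X × ℝ := (g • y.1, y.2)

theorem act_act (g h : G) (y : X × ℝ) : act g (act h y) = act (g * h) y := by
  simp [act, mul_smul]

theorem act_one (y : X × ℝ) : act (1 : G) y = y := by simp [act]

theorem XI.le {j : Z → X} {y : X × ℝ} (h : y ∈ XI j) : y.2 ≤ 0 := h.elim le_of_eq And.right

/-- an equivariant homeomorphism that moves the collar of length `a` to the collar of length `b` -/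
structure Mv (G : Type) [Group G] [MulAction G X] (j : Z → X) (a b : X → ℝ) where
  /-- the map -/
  f : X × ℝ → X × ℝ
  /-- its inverse -/
  g : X × ℝ → X × ℝ
  f_cont : ContinuousOn f (XI j)
  g_cont : ContinuousOn g (XI j)
  f_map : MapsTo f (XI j) (XI j)
  g_map : MapsTo g (XI j) (XI j)
  gf : ∀ y ∈ XI j, g (f y) = y
  fg : ∀ y ∈ XI j, f (g y) = y
  f_act : ∀ (γ : G), ∀ y ∈ XI j, f (act γ y) = act γ (f y)
  f_le : ∀ y ∈ XI j, -a y.1 ≤ y.2 ↔ -b (f y).1 ≤ (f y).2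
  f_bd : ∀ x ∈ range j, f (x, -a x) = (x, -b x)

/-- the identity -/
def Mv.refl (j : Z → X) (a : X → ℝ) : Mv G j a a where
  f := id
  g := id
  f_cont := continuousOn_id
  g_cont := continuousOn_id
  f_map := mapsTo_id _
  g_map := mapsTo_id _
  gf _ _ := rfl
  fg _ _ := rfl
  f_act _ _ _ := rfl
  f_le _ _ := Iff.rfl
  f_bd _ _ := rfl

/-- composition -/
def Mv.trans {j : Z → X} {a b c : X → ℝ} (p : Mv G j a b) (q : Mv G j b c) : Mv G j a c where
  f := q.f ∘ p.f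
  g := p.g ∘ q.g
  f_cont := q.f_cont.comp p.f_cont p.f_map
  g_cont := p.g_cont.comp q.g_cont q.g_map
  f_map := q.f_map.comp p.f_map
  g_map := p.g_map.comp q.g_map
  gf y hy := by simp only [Function.comp]; rw [q.gf _ (p.f_map hy), p.gf y hy]
  fg y hy := by simp only [Function.comp]; rw [p.fg _ (q.g_map hy), q.fg y hy]
  f_act γ y hy := by simp only [Function.comp]; rw [p.f_act γ y hy, q.f_act γ _ (p.f_map hy)]
  f_le y hy := (p.f_le y hy).trans (q.f_le _ (p.f_map hy))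
  f_bd x hx := by simp only [Function.comp]; rw [p.f_bd x hx, q.f_bd x hx]

/-- a product chart at the boundary whose translates are disjoint -/
structure Ch (G : Type) [Group G] [MulAction G X] (j : Z → X) where
  /-- the domain -/
  O : Set X
  /-- the base -/
  U : Set (Fin 3 → ℝ)
  /-- the compact part of the base -/
  T : Set (Fin 3 → ℝ)
  /-- the height -/
  η : ℝ
  /-- the chart -/
  φ : X → (Fin 3 → ℝ) × ℝ
  /-- its inverse -/
  ψ : (Fin 3 → ℝ) × ℝ → X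
  oO : IsOpen O
  cT : IsCompact T
  TU : T ⊆ U
  pos : 0 < η
  φ_cont : ContinuousOn φ O
  ψ_cont : ContinuousOn ψ (U ×ˢ Ico 0 η)
  φ_map : MapsTo φ O (U ×ˢ Ico 0 η)
  ψ_map : MapsTo ψ (U ×ˢ Ico 0 η) O
  ψφ : ∀ x ∈ O, ψ (φ x) = x
  φψ : ∀ v ∈ U ×ˢ Ico 0 η, φ (ψ v) = v
  bd : ∀ x ∈ O, x ∈ range j ↔ (φ x).2 = 0
  disj : ∀ (γ : G) x, x ∈ O → γ • x ∈ O → γ = 1

namespace Ch

variable {j : Z → X} (C : Ch G j) {a b : X → ℝ}

/-- foot point -/
def ft (y : X × ℝ) : X := C.ψ ((C.φ y.1).1, 0)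

/-- signed height -/
def sg (y : X × ℝ) : ℝ := (C.φ y.1).2 + y.2

/-- the point with base `v` and signed height `s` -/
def pt (v : Fin 3 → ℝ) (s : ℝ) : X × ℝ := (C.ψ (v, max s 0), min s 0)

/-- the local move -/
def z0 (a b : X → ℝ) (y : X × ℝ) : X × ℝ :=
  C.pt (C.φ y.1).1 (el C.η (a (C.ft y)) (b (C.ft y)) (C.sg y))

theorem mem0 {v : Fin 3 → ℝ} (hv : v ∈ C.U) : (v, (0 : ℝ)) ∈ C.U ×ˢ Ico 0 C.η :=
  ⟨hv, le_rfl, C.pos⟩

theorem memm {v : Fin 3 → ℝ} (hv : v ∈ C.U) {s : ℝ} (hs : s < C.η) :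
    (v, max s 0) ∈ C.U ×ˢ Ico 0 C.η := ⟨hv, le_max_right _ _, max_lt hs C.pos⟩

theorem ψ0_mem {v : Fin 3 → ℝ} (hv : v ∈ C.U) : C.ψ (v, 0) ∈ range j :=
  (C.bd _ (C.ψ_map (C.mem0 hv))).2 (by rw [C.φψ _ (C.mem0 hv)])

theorem sg_lt {y : X × ℝ} (hy : y ∈ XI j) (h : y.1 ∈ C.O) : C.sg y < C.η := by
  have := (C.φ_map h).2.2
  have := XI.le hy
  unfold sg; linarith

theorem pt_O {v : Fin 3 → ℝ} (hv : v ∈ C.U) {s : ℝ} (hs : s < C.η) : (C.pt v s).1 ∈ C.O :=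
  C.ψ_map (C.memm hv hs)

theorem φ_pt {v : Fin 3 → ℝ} (hv : v ∈ C.U) {s : ℝ} (hs : s < C.η) :
    C.φ (C.pt v s).1 = (v, max s 0) := C.φψ _ (C.memm hv hs)

theorem sg_pt {v : Fin 3 → ℝ} (hv : v ∈ C.U) {s : ℝ} (hs : s < C.η) : C.sg (C.pt v s) = s := by
  rw [sg, C.φ_pt hv hs]
  show max s 0 + min s 0 = s
  rw [max_add_min, add_zero]

theorem ft_pt {v : Fin 3 → ℝ} (hv : v ∈ C.U) {s : ℝ} (hs : s < C.η) :
    C.ft (C.pt v s) = C.ψ (v, 0) := by rw [ft, C.φ_pt hv hs]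

theorem pt_XI {v : Fin 3 → ℝ} (hv : v ∈ C.U) (s : ℝ) : C.pt v s ∈ XI j := by
  rcases le_total s 0 with h | h
  · refine Or.inr ⟨?_, min_le_right _ _⟩
    show C.ψ (v, max s 0) ∈ _
    rw [max_eq_right h]; exact C.ψ0_mem hv
  · exact Or.inl (min_eq_right h)

theorem pt_self {y : X × ℝ} (hy : y ∈ XI j) (h : y.1 ∈ C.O) : C.pt (C.φ y.1).1 (C.sg y) = y := by
  have h0 := (C.φ_map h).2.1
  rcases hy with hy | ⟨hy, hy'⟩
  · have : C.sg y = (C.φ y.1).2 := by rw [sg, hy, add_zero]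
    rw [this, pt, max_eq_left h0, min_eq_right h0, C.ψφ _ h, ← hy]
  · have h1 := (C.bd _ h).1 hy
    have : C.sg y = y.2 := by rw [sg, h1, zero_add]
    rw [this, pt, max_eq_right hy', min_eq_left hy', ← h1, C.ψφ _ h]

theorem ft_of_mem {y : X × ℝ} (h : y.1 ∈ C.O) (hy : y.1 ∈ range j) : C.ft y = y.1 := by
  rw [ft, ← (C.bd _ h).1 hy, C.ψφ _ h]

theorem le_iff (ha : ∀ x, 0 ≤ a x) {y : X × ℝ} (hy : y ∈ XI j) (h : y.1 ∈ C.O) :
    -a y.1 ≤ y.2 ↔ -a (C.ft y) ≤ C.sg y := by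
  have h0 := (C.φ_map h).2.1
  rcases hy with hy | ⟨hy, hy'⟩
  · have h1 := ha y.1
    have h2 := ha (C.ft y)
    rw [sg, hy]
    constructor <;> intro _ <;> linarith
  · rw [C.ft_of_mem h hy, sg, (C.bd _ h).1 hy, zero_add]

section
variable (ha : ∀ x, 0 ≤ a x) (hb : ∀ x, 0 ≤ b x) {y : X × ℝ} (hy : y ∈ XI j) (h : y.1 ∈ C.O)
include ha hb hy h

theorem new_lt : el C.η (a (C.ft y)) (b (C.ft y)) (C.sg y) < C.η :=
  el_lt C.pos (ha _) (hb _) (C.sg_lt hy h)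

theorem z0_O : (C.z0 a b y).1 ∈ C.O := C.pt_O (C.φ_map h).1 (C.new_lt ha hb hy h)

theorem z0_z0 : C.z0 b a (C.z0 a b y) = y := by
  have h1 := (C.φ_map h).1
  have h2 := C.new_lt ha hb hy h
  have h3 : C.ft (C.z0 a b y) = C.ft y := C.ft_pt h1 h2
  rw [z0, h3]
  conv_lhs => rw [z0, C.φ_pt h1 h2, C.sg_pt h1 h2]
  rw [el_el C.pos (ha _) (hb _), C.pt_self hy h]

theorem z0_le : -a y.1 ≤ y.2 ↔ -b (C.z0 a b y).1 ≤ (C.z0 a b y).2 := by
  have h1 := (C.φ_map h).1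
  have h2 := C.new_lt ha hb hy h
  have h3 : C.ft (C.z0 a b y) = C.ft y := C.ft_pt h1 h2
  have h4 : C.sg (C.z0 a b y) = _ := C.sg_pt h1 h2
  rw [C.le_iff ha hy h, C.le_iff hb (y := C.z0 a b y) (C.pt_XI h1 _) (C.z0_O ha hb hy h), h3, h4]
  exact le_el_iff C.pos (ha _) (hb _)

end

theorem z0_XI {y : X × ℝ} (h : y.1 ∈ C.O) : C.z0 a b y ∈ XI j := C.pt_XI (C.φ_map h).1 _

theorem z0_bd (ha : ∀ x, 0 ≤ a x) (hb : ∀ x, 0 ≤ b x) {x : X} (h : x ∈ C.O) (hx : x ∈ range j) :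
    C.z0 a b (x, -a x) = (x, -b x) := by
  have h1 := (C.bd _ h).1 hx
  have h2 : C.ft (x, -a x) = x := C.ft_of_mem (y := (x, -a x)) h hx
  have h3 : C.sg (x, -a x) = -a x := by rw [sg, h1, zero_add]
  have h4 : -b x ≤ 0 := by linarith [hb x]
  rw [z0, h2, h3, el_neg C.pos (ha _), pt, max_eq_right h4, min_eq_left h4, ← h1, C.ψφ _ h]

theorem z0_cont (ha : ∀ x, 0 ≤ a x) (hb : ∀ x, 0 ≤ b x) (ca : Continuous a) (cb : Continuous b) :
    ContinuousOn (C.z0 a b) {y | y ∈ XI j ∧ y.1 ∈ C.O} := by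
  have h1 : ContinuousOn (fun y : X × ℝ => C.φ y.1) {y | y ∈ XI j ∧ y.1 ∈ C.O} :=
    C.φ_cont.comp continuousOn_fst fun y hy => hy.2
  have h2 : ContinuousOn C.ft {y | y ∈ XI j ∧ y.1 ∈ C.O} :=
    C.ψ_cont.comp (h1.fst.prodMk continuousOn_const) fun y hy => C.mem0 (C.φ_map hy.2).1
  have h3 : ContinuousOn C.sg {y | y ∈ XI j ∧ y.1 ∈ C.O} := h1.snd.add continuousOn_snd
  have h4 : ContinuousOn (fun y => el C.η (a (C.ft y)) (b (C.ft y)) (C.sg y))
      {y | y ∈ XI j ∧ y.1 ∈ C.O} := by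
    have ha' := ca.comp_continuousOn h2
    have hb' := cb.comp_continuousOn h2
    refine h3.sub (((continuousOn_const.sub h3).sup continuousOn_const).mul
      ((hb'.sub ha').div (continuousOn_const.add ha') fun y _ => ?_))
    have := C.pos
    have := ha (C.ft y)
    show C.η / 2 + a (C.ft y) ≠ 0
    linarith
  exact (C.ψ_cont.comp (h1.fst.prodMk (h4.sup continuousOn_const)) fun y hy =>
    C.memm (C.φ_map hy.2).1 (C.new_lt ha hb hy.1 hy.2)).prodMk (h4.inf continuousOn_const)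

/-- the compact set outside of which nothing moves -/
def K : Set X := C.ψ '' (C.T ×ˢ Icc 0 (C.η / 2))

theorem sub_K : C.T ×ˢ Icc 0 (C.η / 2) ⊆ C.U ×ˢ Ico 0 C.η := fun _ hv =>
  ⟨C.TU hv.1, hv.2.1, lt_of_le_of_lt hv.2.2 (half_lt_self C.pos)⟩

theorem K_compact : IsCompact C.K :=
  (C.cT.prod isCompact_Icc).image_of_continuousOn (C.ψ_cont.mono C.sub_K)

theorem K_sub : C.K ⊆ C.O := by
  rintro _ ⟨v, hv, rfl⟩
  exact C.ψ_map (C.sub_K hv)

theorem z0_fix (hab : ∀ x ∈ range j, a x ≠ b x → ∃ γ : G, γ • x ∈ C.K) {y : X × ℝ}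
    (hy : y ∈ XI j) (h : y.1 ∈ C.O) (hK : y.1 ∉ C.K) : C.z0 a b y = y := by
  have h1 := C.φ_map h
  suffices el C.η (a (C.ft y)) (b (C.ft y)) (C.sg y) = C.sg y by rw [z0, this, C.pt_self hy h]
  by_cases hv : (C.φ y.1).1 ∈ C.T
  · have h2 : C.η / 2 < (C.φ y.1).2 := by
      by_contra h2
      exact hK ⟨C.φ y.1, ⟨hv, h1.2.1, not_lt.1 h2⟩, C.ψφ _ h⟩
    rcases hy with hy | ⟨hy, -⟩
    · exact el_of_ge (by rw [sg, hy, add_zero]; exact h2.le)
    · have := (C.bd _ h).1 hy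
      linarith [C.pos]
  · by_cases e : a (C.ft y) = b (C.ft y)
    · rw [e, el_self]
    · obtain ⟨γ, hγ⟩ := hab _ (C.ψ0_mem h1.1) e
      have h3 : γ = 1 := C.disj γ _ (C.ψ_map (C.mem0 h1.1)) (C.K_sub hγ)
      rw [h3, one_smul] at hγ
      obtain ⟨v, hv', e'⟩ := hγ
      have h4 := congrArg C.φ e'
      rw [C.φψ _ (C.sub_K hv'), C.φψ _ (C.mem0 h1.1)] at h4
      exact absurd (by rw [← congrArg Prod.fst h4]; exact hv'.1) hv

end Ch

end Col

end Vale.Agent.P260Z.L2
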