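import Vale.Agent.P260Z.L2.Defs

/-!
# P260, layer 2: the cone neighbourhood of a barycentre
-/

noncomputable section

namespace Vale.Agent.P260Z.L2

open Set Topology

namespace ConeAux

variable {V : Type}

/-- the barycentre of a finite set of vertices -/
def bar (c : Finset V) : V → ℝ := (c : Set V).indicator fun _ => 1 / (c.card : ℝ)

theorem bar_mem {c : Finset V} {v : V} (h : v ∈ c) : bar c v = 1 / (c.card : ℝ) :=
  indicator_of_mem (Finset.mem_coe.2 h) _

theorem bar_not {c : Finset V} {v : V} (h : v ∉ c) : bar c v = 0 :=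
  indicator_of_notMem (fun h' => h (Finset.mem_coe.1 h')) _

theorem card_pos' {c : Finset V} (h : c.Nonempty) : (0 : ℝ) < c.card := by
  exact_mod_cast h.card_pos

theorem bar_nonneg (c : Finset V) (v : V) : 0 ≤ bar c v := by
  by_cases h : v ∈ c
  · rw [bar_mem h]
    positivity
  · rw [bar_not h]

theorem sum_bar {c s : Finset V} (h : c.Nonempty) (hs : c ⊆ s) : ∑ v ∈ s, bar c v = 1 := by
  rw [← Finset.sum_subset hs fun v _ hv => bar_not hv,
    Finset.sum_congr rfl fun v hv => bar_mem hv, Finset.sum_const, nsmul_eq_mul]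
  exact mul_one_div_cancel (card_pos' h).ne'

theorem bar_real {K : SC V} {c : Finset V} (h : K.face c) : bar c ∈ K.real :=
  ⟨bar_nonneg c, c, h, fun _ hv => bar_not hv, sum_bar (K.ne h) Finset.Subset.rfl⟩

/-- the radius in barycentric coordinates -/
def rad (c : Finset V) (h : c.Nonempty) (x : V → ℝ) : ℝ := 1 - c.card * c.inf' h x

theorem rad_cont (c : Finset V) (h : c.Nonempty) : Continuous (rad c h) :=
  continuous_const.sub (continuous_const.mul
    (Continuous.finset_inf'_apply h fun v _ => continuous_apply v))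

theorem sum_le_one {K : SC V} {x : V → ℝ} (hx : x ∈ K.real) (c : Finset V) :
    ∑ v ∈ c, x v ≤ 1 := by
  classical
  obtain ⟨h0, s, -, h1, h2⟩ := hx
  rw [← h2, Finset.sum_subset (Finset.subset_union_left (s₂ := c)) fun v _ hv => h1 v hv]
  exact Finset.sum_le_sum_of_subset_of_nonneg Finset.subset_union_right fun v _ _ => h0 v

theorem card_inf_le {c : Finset V} (h : c.Nonempty) (x : V → ℝ) :
    (c.card : ℝ) * c.inf' h x ≤ ∑ v ∈ c, x v := by
  rw [← nsmul_eq_mul]
  exact Finset.card_nsmul_le_sum c x _ fun v hv => Finset.inf'_le x hv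

theorem rad_nonneg {K : SC V} {x : V → ℝ} (hx : x ∈ K.real) {c : Finset V} (h : c.Nonempty) :
    0 ≤ rad c h x :=
  sub_nonneg.2 ((card_inf_le h x).trans (sum_le_one hx c))

theorem rad_lt_iff {c : Finset V} (h : c.Nonempty) (x : V → ℝ) :
    rad c h x < 1 ↔ ∀ v ∈ c, 0 < x v := by
  rw [rad, sub_lt_self_iff, mul_pos_iff_of_pos_left (card_pos' h), Finset.lt_inf'_iff]

theorem rad_le {c : Finset V} (h : c.Nonempty) (x : V → ℝ) {v : V} (hv : v ∈ c) :
    1 - rad c h x ≤ c.card * x v := by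
  rw [rad, sub_sub_cancel]
  exact mul_le_mul_of_nonneg_left (Finset.inf'_le x hv) (card_pos' h).le

/-- the dilation in barycentric coordinates -/
def dil (c : Finset V) (μ : ℝ) (x : V → ℝ) : V → ℝ := fun v => bar c v + μ * (x v - bar c v)

theorem rad_dil {c : Finset V} (h : c.Nonempty) {μ : ℝ} (hμ : 0 ≤ μ) (x : V → ℝ) :
    rad c h (dil c μ x) = μ * rad c h x := by
  have hn := card_pos' h
  have e : c.inf' h (dil c μ x) = 1 / (c.card : ℝ) + μ * (c.inf' h x - 1 / (c.card : ℝ)) := by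
    refine le_antisymm ?_ (Finset.le_inf' h _ fun v hv => ?_)
    · obtain ⟨v, hv, e⟩ := Finset.exists_mem_eq_inf' h x
      refine (Finset.inf'_le _ hv).trans (le_of_eq ?_)
      rw [dil, bar_mem hv, e]
    · rw [dil, bar_mem hv]
      exact add_le_add le_rfl (mul_le_mul_of_nonneg_left
        (sub_le_sub_right (Finset.inf'_le x hv) _) hμ)
  rw [rad, rad, e]
  field_simp
  ring

theorem rad_bar {c : Finset V} (h : c.Nonempty) : rad c h (bar c) = 0 := by
  have e : dil c 0 (bar c) = bar c := funext fun v => by rw [dil, zero_mul, add_zero]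
  rw [← e, rad_dil h le_rfl, zero_mul]

theorem sub_face {c s : Finset V} {x : V → ℝ} (h1 : ∀ v, v ∉ s → x v = 0)
    (h : ∀ v ∈ c, 0 < x v) : c ⊆ s := fun v hv => by
  by_contra h'
  exact (h v hv).ne' (h1 v h')

theorem dil_real {K : SC V} {x : V → ℝ} (hx : x ∈ K.real) {c : Finset V} (h : c.Nonempty)
    {μ : ℝ} (hμ : 0 ≤ μ) (hr : rad c h x < 1) (hm : μ * rad c h x < 1) : dil c μ x ∈ K.real := by
  obtain ⟨h0, s, hs, h1, h2⟩ := hx
  have hcs : c ⊆ s := sub_face h1 ((rad_lt_iff h x).1 hr)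
  refine ⟨fun v => ?_, s, hs, fun v hv => ?_, ?_⟩
  · by_cases hv : v ∈ c
    · rw [← rad_dil h hμ] at hm
      exact ((rad_lt_iff h _).1 hm v hv).le
    · rw [dil, bar_not hv, zero_add, sub_zero]
      exact mul_nonneg hμ (h0 v)
  · rw [dil, bar_not fun h' => hv (hcs h'), h1 v hv, sub_zero, mul_zero, add_zero]
  · simp only [dil]
    rw [Finset.sum_add_distrib, ← Finset.mul_sum, Finset.sum_sub_distrib, sum_bar h hcs, h2,
      sub_self, mul_zero, add_zero]

theorem eq_bar {K : SC V} {x : V → ℝ} (hx : x ∈ K.real) {c : Finset V} (h : c.Nonempty)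
    (hr : rad c h x = 0) : x = bar c := by
  obtain ⟨h0, s, -, h1, h2⟩ := hx
  have hcs : c ⊆ s := sub_face h1 ((rad_lt_iff h x).1 (by rw [hr]; exact zero_lt_one))
  have hle : ∀ v, bar c v ≤ x v := fun v => by
    by_cases hv : v ∈ c
    · have := rad_le h x hv
      rw [hr, sub_zero] at this
      rw [bar_mem hv, div_le_iff₀ (card_pos' h), mul_comm]
      exact this
    · rw [bar_not hv]
      exact h0 v
  have he := (Finset.sum_eq_sum_iff_of_le fun v (_ : v ∈ s) => hle v).1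
    ((sum_bar h hcs).trans h2.symm)
  funext v
  by_cases hv : v ∈ s
  · exact (he v hv).symm
  · rw [h1 v hv, bar_not fun h' => hv (hcs h')]

/-- the closed simplex -/
def smp (s : Finset V) : Set (V → ℝ) :=
  {x | (∀ v, 0 ≤ x v) ∧ (∀ v, v ∉ s → x v = 0) ∧ ∑ v ∈ s, x v = 1}

theorem smp_compact (s : Finset V) : IsCompact (smp s) := by
  refine (isCompact_univ_pi fun _ : V => (isCompact_Icc : IsCompact (Icc (0 : ℝ) 1))).of_isClosed_subset
    ?_ ?_
  · simp only [smp, ofPred_and, ofPred_forall]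
    exact (isClosed_iInter fun v => isClosed_le continuous_const (continuous_apply v)).inter
      ((isClosed_iInter fun v => isClosed_iInter fun _ =>
        isClosed_eq (continuous_apply v) continuous_const).inter
        (isClosed_eq (continuous_finsetSum _ fun v _ => continuous_apply v) continuous_const))
  · rintro x ⟨h0, h1, h2⟩ v -
    refine ⟨h0 v, ?_⟩
    by_cases hv : v ∈ s
    · rw [← h2]
      exact Finset.single_le_sum (fun w _ => h0 w) hv
    · rw [h1 v hv]
      exact zero_le_one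

theorem dil_cont {Y : Type} [TopologicalSpace Y] (c : Finset V) {f : Y → ℝ} {g : Y → V → ℝ}
    (hf : Continuous f) (hg : Continuous g) : Continuous fun y => dil c (f y) (g y) :=
  continuous_pi fun v => continuous_const.add
    (hf.mul (((continuous_apply v).comp hg).sub continuous_const))

end ConeAux

open ConeAux

variable {G Z X : Type} [Group G] [TopologicalSpace Z] [TopologicalSpace X]
  [MulAction G Z] [MulAction G X]

/-- the cone neighbourhood of the barycentre of a simplex -/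
def Tri.coneAt (T : Tri G Z) {c₀ : Finset T.V} (h : T.K.face c₀) : ConeAt Z where
  p := T.ι (bar c₀)
  r := fun z => rad c₀ (T.K.ne h) (T.bc z)
  ctr := fun μ z => T.ι (dil c₀ μ (T.bc z))
  r_cont := (rad_cont _ _).comp T.bc_cont
  r_nonneg := fun z => rad_nonneg (T.bc_mem z) _
  r_p := by rw [T.bc_ι _ (bar_real h), rad_bar]
  eq_p := fun z hz => by rw [← eq_bar (T.bc_mem z) _ hz, T.ι_bc]
  cpt := fun ρ hρ => by
    obtain ⟨v₀, hv₀⟩ := T.K.ne h
    refine ((T.K.lf v₀).isCompact_biUnion (f := fun s => T.ι '' smp s) fun s hs =>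
      (smp_compact s).image_of_continuousOn
        (T.ι_cont.mono fun x hx => ⟨hx.1, s, hs.1, hx.2⟩)).of_isClosed_subset
      (isClosed_le ((rad_cont _ _).comp T.bc_cont) continuous_const) fun z hz => ?_
    obtain ⟨h0, s, hs, h1, h2⟩ := T.bc_mem z
    have hcs : c₀ ⊆ s := sub_face h1 ((rad_lt_iff (T.K.ne h) _).1 (lt_of_le_of_lt hz hρ))
    exact mem_biUnion (x := s) ⟨hs, hcs hv₀⟩ ⟨_, ⟨h0, h1, h2⟩, T.ι_bc z⟩
  ctr_cont := T.ι_cont.comp
    (dil_cont c₀ continuous_fst (T.bc_cont.comp continuous_snd)).continuousOn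
    fun y hy => dil_real (T.bc_mem y.2) _ hy.1 hy.2.1 hy.2.2
  r_ctr := fun μ z h1 h2 h3 => by
    rw [T.bc_ι _ (dil_real (T.bc_mem z) _ h1 h2 h3), rad_dil _ h1]
  ctr_one := fun z _ => by
    have e : dil c₀ 1 (T.bc z) = T.bc z := funext fun v => by rw [dil, one_mul, add_sub_cancel]
    rw [e, T.ι_bc]
  ctr_ctr := fun μ ν z _ h1 h2 h3 _ => by
    rw [T.bc_ι _ (dil_real (T.bc_mem z) _ h1 h2 h3)]
    refine congrArg T.ι (funext fun v => ?_)
    simp only [dil]
    ring

theorem Tri.cone (T : Tri G Z) {c₀ : Finset T.V} (h : T.K.face c₀) :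
    ∃ A : ConeAt Z, Pos c₀ (T.bc A.p) ∧ ∀ s : Finset T.V, c₀ ⊆ s → ∀ z, Pos s (T.bc z) →
      A.r z < 1 ∧ ∀ μ, 0 < μ → μ ≤ 1 → Pos s (T.bc (A.ctr μ z)) := by
  refine ⟨T.coneAt h, ?_, ?_⟩
  · change Pos c₀ (T.bc (T.ι (bar c₀)))
    rw [T.bc_ι _ (bar_real h)]
    refine ⟨0, le_rfl, fun v hv => ?_, fun v hv => (bar_not hv).le⟩
    rw [bar_mem hv]
    exact one_div_pos.2 (card_pos' (T.K.ne h))
  · rintro s hs z ⟨θ, h0, h1, h2⟩
    have hr : rad c₀ (T.K.ne h) (T.bc z) < 1 :=
      (rad_lt_iff _ _).2 fun v hv => h0.trans_lt (h1 v (hs hv))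
    refine ⟨hr, fun μ m0 m1 => ?_⟩
    change Pos s (T.bc (T.ι (dil c₀ μ (T.bc z))))
    rw [T.bc_ι _ (dil_real (T.bc_mem z) _ m0.le hr
      ((mul_le_of_le_one_left (rad_nonneg (T.bc_mem z) _) m1).trans_lt hr))]
    refine ⟨μ * θ, mul_nonneg m0.le h0, fun v hv => ?_, fun v hv => ?_⟩
    · have a1 := mul_lt_mul_of_pos_left (h1 v hv) m0
      have a2 := mul_nonneg (sub_nonneg.2 m1) (bar_nonneg c₀ v)
      rw [dil]
      linarith
    · rw [dil, bar_not fun h' => hv (hs h'), zero_add, sub_zero]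
      exact mul_le_mul_of_nonneg_left (h2 v hv) m0.le

theorem Tri.isOpen_pos (T : Tri G Z) (s : Finset T.V) (hs : s.Nonempty) :
    IsOpen {z | Pos s (T.bc z)} := by
  classical
  obtain ⟨v₀, hv₀⟩ := hs
  set A : Finset T.V := (T.K.lf v₀).toFinset.biUnion id \ s with hA
  have e : {z | Pos s (T.bc z)} = ⋂ v ∈ s, ({z | 0 < T.bc z v} ∩ ⋂ w ∈ A, {z | T.bc z w < T.bc z v}) := by
    ext z
    simp only [mem_ofPred_eq, mem_iInter, mem_inter_iff]
    constructor
    · rintro ⟨θ, h0, h1, h2⟩ v hv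
      exact ⟨h0.trans_lt (h1 v hv), fun w hw => (h2 w (Finset.mem_sdiff.1 hw).2).trans_lt (h1 v hv)⟩
    · intro H
      refine ⟨A.fold max 0 (T.bc z), (Finset.le_fold_max _).2 (Or.inl le_rfl),
        fun v hv => (Finset.fold_max_lt _).2 (H v hv), fun w hw => (Finset.le_fold_max _).2 ?_⟩
      obtain ⟨-, t, ht, h1, -⟩ := T.bc_mem z
      by_cases hwt : w ∈ t
      · refine Or.inr ⟨w, Finset.mem_sdiff.2 ⟨Finset.mem_biUnion.2 ⟨t, ?_, hwt⟩, hw⟩, le_rfl⟩
        refine (T.K.lf v₀).mem_toFinset.2 ⟨ht, ?_⟩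
        by_contra h'
        exact (H v₀ hv₀).1.ne' (h1 v₀ h')
      · exact Or.inl (h1 w hwt).le
  have hc : ∀ v, Continuous fun z => T.bc z v := fun v => (continuous_apply v).comp T.bc_cont
  rw [e]
  exact isOpen_biInter_finset fun v _ => (isOpen_lt continuous_const (hc v)).inter
    (isOpen_biInter_finset fun w _ => isOpen_lt (hc w) (hc v))

end Vale.Agent.P260Z.L2
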