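import Vale.Agent.P260Z.L2.Simp

/-!
# P260, layer 2: a cube complex is triangulated by the flags of its cubes
-/

noncomputable section

namespace Vale.Agent.P260Z.L2

open Set Topology

namespace CubA

/-- the centres of the faces of the cube -/
abbrev Cn : Type := Fin 3 → SignType

/-- a centre as a point of the cube -/
def pt (c : Cn) (k : Fin 3) : ℝ := (1 + (c k : ℝ)) / 2

/-- the symmetries act on the centres -/
def sc (σ : Equiv.Perm (Fin 3)) (ε : Fin 3 → Bool) (c : Cn) : Cn :=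
  fun k => if ε k then -c (σ k) else c (σ k)

/-- the lower bound in one coordinate -/
def wa (s : SignType) (x : ℝ) : ℝ := if s = 0 then 1 else s * (2 * x - 1)

/-- the upper bound in one coordinate -/
def wb (s : SignType) (x : ℝ) : ℝ := if s = 0 then |2 * x - 1| else 0

/-- the weight of the centre `c` at the point `p` -/
def w (c : Cn) (p : Fin 3 → ℝ) : ℝ := max 0 ((⨅ k, wa (c k) (p k)) - ⨆ k, wb (c k) (p k))

/-- the standard flag -/
def fl (j : Fin 4) : Cn := fun k => if (k : ℕ) < j then 1 else 0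

/-- the standard simplex of the cube -/
def std (t : Fin 4 → ℝ) : Fin 3 → ℝ := fun k => ∑ j, t j * pt (fl j) k

variable {σ : Equiv.Perm (Fin 3)} {ε : Fin 3 → Bool} {c : Cn} {p : Fin 3 → ℝ} {t : Fin 4 → ℝ}

theorem pt_mem (c : Cn) : pt c ∈ Icc (0 : Fin 3 → ℝ) 1 := by
  refine ⟨fun k => ?_, fun k => ?_⟩ <;> unfold pt <;> cases c k <;> norm_num

theorem pt_inj : Function.Injective pt := fun c c' h => funext fun k => by
  have := congrFun h k
  unfold pt at this
  revert this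
  cases c k <;> cases c' k <;> norm_num

theorem pt_sc (σ ε) (c : Cn) : pt (sc σ ε c) = sym σ ε (pt c) := funext fun k => by
  unfold pt sc sym
  split_ifs
  · push_cast
    ring
  · rfl

theorem sc_bij (σ ε) : Function.Bijective (sc σ ε) :=
  Finite.injective_iff_bijective.1 fun c c' h => funext fun k => by
    have := congrFun h (σ.symm k)
    unfold sc at this
    split_ifs at this <;> simpa using this

theorem fl_inj : Function.Injective fl := by decide

theorem sym_mem (σ ε) (h : p ∈ Icc (0 : Fin 3 → ℝ) 1) : sym σ ε p ∈ Icc (0 : Fin 3 → ℝ) 1 := by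
  refine ⟨fun k => ?_, fun k => ?_⟩ <;> have h1 : (0 : ℝ) ≤ p (σ k) := h.1 _ <;>
    have h2 : p (σ k) ≤ 1 := h.2 _ <;> unfold sym <;> split_ifs <;> simpa

theorem w_nonneg (c : Cn) (p) : 0 ≤ w c p := le_max_left _ _

theorem wa_neg (s x) : wa (-s) (1 - x) = wa s x := by
  cases s <;> simp [wa] <;> ring

theorem wb_neg (s x) : wb (-s) (1 - x) = wb s x := by
  cases s <;> simp [wb]
  rw [← abs_neg]
  congr 1
  ring

theorem w_sc (σ ε) (c : Cn) (p) : w (sc σ ε c) (sym σ ε p) = w c p := by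
  unfold w
  rw [← σ.iInf_comp (g := fun k => wa (c k) (p k)), ← σ.iSup_comp (g := fun k => wb (c k) (p k))]
  congr 3 <;> funext k <;> unfold sc sym <;> cases ε k <;> simp [wa_neg, wb_neg]

theorem inf3 (f : Fin 3 → ℝ) : ⨅ k, f k = min (f 0) (min (f 1) (f 2)) :=
  le_antisymm (le_min (ciInf_le (Finite.bddBelow_range f) _)
    (le_min (ciInf_le (Finite.bddBelow_range f) _) (ciInf_le (Finite.bddBelow_range f) _)))
    (le_ciInf fun k => by fin_cases k <;> simp)

theorem sup3 (f : Fin 3 → ℝ) : ⨆ k, f k = max (f 0) (max (f 1) (f 2)) :=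
  le_antisymm (ciSup_le fun k => by fin_cases k <;> simp)
    (max_le (le_ciSup (Finite.bddAbove_range f) _)
      (max_le (le_ciSup (Finite.bddAbove_range f) _) (le_ciSup (Finite.bddAbove_range f) _)))

theorem key {t0 t1 t2 t3 : ℝ} (h0 : 0 ≤ t0) (h1 : 0 ≤ t1) (h2 : 0 ≤ t2) (h3 : 0 ≤ t3)
    (h : t0 + t1 + t2 + t3 = 1) (a b d : SignType) :
    max 0 (min (if a = 0 then 1 else a * (t1 + t2 + t3)) (min (if b = 0 then 1 else b * (t2 + t3))
      (if d = 0 then 1 else d * t3)) - max (if a = 0 then t1 + t2 + t3 else 0)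
      (max (if b = 0 then t2 + t3 else 0) (if d = 0 then t3 else 0))) =
    (if a = 0 ∧ b = 0 ∧ d = 0 then t0 else 0) + (if a = 1 ∧ b = 0 ∧ d = 0 then t1 else 0) +
      (if a = 1 ∧ b = 1 ∧ d = 0 then t2 else 0) + (if a = 1 ∧ b = 1 ∧ d = 1 then t3 else 0) := by
  cases a <;> cases b <;> cases d <;>
    simp only [SignType.zero_eq_zero, SignType.neg_eq_neg_one, SignType.pos_eq_one,
      SignType.coe_neg_one, SignType.coe_one, reduceCtorEq, if_true, if_false, and_self, and_false,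
      and_true, one_ne_zero, zero_ne_one] <;> grind

theorem w_std (ht : t ∈ stdSimplex ℝ (Fin 4)) (c : Cn) :
    w c (std t) = ∑ j, if fl j = c then t j else 0 := by
  have h0 := ht.1 0
  have h1 := ht.1 1
  have h2 := ht.1 2
  have h3 := ht.1 3
  have h := ht.2
  rw [Fin.sum_univ_four] at h
  have e0 : 2 * std t 0 - 1 = t 1 + t 2 + t 3 := by
    simp [std, pt, fl, Fin.sum_univ_four]
    linarith
  have e1 : 2 * std t 1 - 1 = t 2 + t 3 := by
    simp [std, pt, fl, Fin.sum_univ_four]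
    linarith
  have e2 : 2 * std t 2 - 1 = t 3 := by
    simp [std, pt, fl, Fin.sum_univ_four]
    linarith
  simp only [w, inf3, sup3, wa, wb, e0, e1, e2, abs_of_nonneg h3, abs_of_nonneg (add_nonneg h2 h3),
    abs_of_nonneg (add_nonneg (add_nonneg h1 h2) h3), Fin.sum_univ_four, key h0 h1 h2 h3 h]
  simp [funext_iff, Fin.forall_fin_succ, fl, eq_comm]

theorem exists_std (h : p ∈ Icc (0 : Fin 3 → ℝ) 1) :
    ∃ σ ε, ∃ t ∈ stdSimplex ℝ (Fin 4), sym σ ε (std t) = p := by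
  set x : Fin 3 → ℝ := fun k => |2 * p k - 1| with hx
  have m := Tuple.monotone_sort fun k => -x k
  set τ := Tuple.sort fun k => -x k
  have m1 : x (τ 1) ≤ x (τ 0) := neg_le_neg_iff.1 (m (show (0 : Fin 3) ≤ 1 by decide))
  have m2 : x (τ 2) ≤ x (τ 1) := neg_le_neg_iff.1 (m (show (1 : Fin 3) ≤ 2 by decide))
  have m0 : x (τ 0) ≤ 1 := by
    have h1 : (0 : ℝ) ≤ p (τ 0) := h.1 _
    have h2 : p (τ 0) ≤ 1 := h.2 _
    exact abs_le.2 ⟨by linarith, by linarith⟩
  have e : ∀ k, std ![1 - x (τ 0), x (τ 0) - x (τ 1), x (τ 1) - x (τ 2), x (τ 2)] k =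
      (1 + x (τ k)) / 2 := fun k => by
    fin_cases k <;> simp [std, pt, fl, Fin.sum_univ_four] <;> ring
  refine ⟨τ.symm, fun k => decide (2 * p k - 1 < 0),
    ![1 - x (τ 0), x (τ 0) - x (τ 1), x (τ 1) - x (τ 2), x (τ 2)], ⟨fun j => ?_, ?_⟩,
    funext fun k => ?_⟩
  · fin_cases j <;> simp [m0, m1, m2]
    exact abs_nonneg _
  · simp [Fin.sum_univ_four]
  · simp only [sym, e, Equiv.apply_symm_apply, decide_eq_true_eq]
    simp only [hx]
    split_ifs with h'
    · rw [abs_of_neg h']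
      ring
    · rw [abs_of_nonneg (not_lt.1 h')]
      ring

theorem sum_w {M : Type} [AddCommMonoid M] [Module ℝ M] (ht : t ∈ stdSimplex ℝ (Fin 4)) (σ ε)
    (f : Cn → M) : ∑ c, w c (sym σ ε (std t)) • f c = ∑ j, t j • f (sc σ ε (fl j)) := by
  rw [← (sc_bij σ ε).sum_comp]
  simp only [w_sc, w_std ht, Finset.sum_smul]
  rw [Finset.sum_comm]
  refine Finset.sum_congr rfl fun j _ => ?_
  simp

theorem sum_w_pt (h : p ∈ Icc (0 : Fin 3 → ℝ) 1) : ∑ c, w c p • pt c = p := by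
  obtain ⟨σ, ε, t, ht, rfl⟩ := exists_std h
  rw [sum_w ht]
  funext k
  simp only [pt_sc, Finset.sum_apply, Pi.smul_apply, smul_eq_mul, sym, std]
  split_ifs
  · simp only [mul_sub, mul_one, Finset.sum_sub_distrib, ht.2]
  · rfl

theorem std_mem (ht : t ∈ stdSimplex ℝ (Fin 4)) : std t ∈ Icc (0 : Fin 3 → ℝ) 1 :=
  ⟨fun k => Finset.sum_nonneg fun j _ => mul_nonneg (ht.1 j) ((pt_mem _).1 k), fun k =>
    (Finset.sum_le_sum fun j _ => mul_le_of_le_one_right (ht.1 j) ((pt_mem _).2 k)).trans ht.2.le⟩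

theorem w_pos : 0 < w c p ↔ ∀ k l, wb (c l) (p l) < wa (c k) (p k) := by
  rw [w, lt_max_iff, lt_self_iff_false, false_or, sub_pos]
  refine ⟨fun h k l => ((le_ciSup (Finite.bddAbove_range fun k => wb (c k) (p k)) l).trans_lt
    h).trans_le (ciInf_le (Finite.bddBelow_range _) k), fun h => ?_⟩
  obtain ⟨l, hl⟩ := exists_eq_ciSup_of_finite (f := fun k => wb (c k) (p k))
  obtain ⟨k, hk⟩ := exists_eq_ciInf_of_finite (f := fun k => wa (c k) (p k))
  exact hl ▸ hk ▸ h k l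

theorem face_of_w (h : w c p ≠ 0) (k : Fin 3) (hk : p k = 0 ∨ p k = 1) : pt c k = p k := by
  have h1 := w_pos.1 ((w_nonneg c p).lt_of_ne' h) k k
  revert h1
  unfold pt wa wb
  cases c k <;> rcases hk with e | e <;> rw [e] <;> norm_num

theorem exists_top (h : p ∈ Icc (0 : Fin 3 → ℝ) 1) :
    ∃ c, 0 < w c p ∧ ∀ k, pt c k = 0 ∨ pt c k = 1 → p k = pt c k := by
  refine ⟨fun k => if p k = 0 then -1 else if p k = 1 then 1 else 0,
    w_pos.2 fun k l => lt_of_lt_of_le (b := 1) ?_ ?_, fun k => ?_⟩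
  · have h1 : (0 : ℝ) ≤ p l := h.1 _
    have h2 : p l ≤ 1 := h.2 _
    by_cases a : p l = 0
    · simp [wb, a]
    by_cases b : p l = 1
    · simp [wb, b]
    have := h1.lt_of_ne' a
    have := h2.lt_of_ne b
    simp only [wb, a, b, if_false, if_true]
    exact abs_lt.2 ⟨by linarith, by linarith⟩
  · by_cases a : p k = 0
    · simp [wa, a]
    by_cases b : p k = 1
    · norm_num [wa, b]
    simp [wa, a, b]
  · by_cases a : p k = 0
    · simp [pt, a]
    by_cases b : p k = 1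
    · simp [pt, b]
    norm_num [pt, a, b]

end CubA

open CubA

variable {G Z : Type} [Group G] [TopologicalSpace Z] [MulAction G Z]

namespace Cub

variable (Q : Cub G Z)

open Classical in
/-- the barycentric coordinates in a cube -/
def cw (g : G) (i : Q.I) (p : Fin 3 → ℝ) (v : Z) : ℝ :=
  ∑ c, w c p • if g • Q.φ i (pt c) = v then (1 : ℝ) else 0

variable {Q} {g g' : G} {i i' : Q.I} {p p' : Fin 3 → ℝ}

theorem compat' (hp : p ∈ Icc (0 : Fin 3 → ℝ) 1) (hp' : p' ∈ Icc (0 : Fin 3 → ℝ) 1)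
    (h : g • Q.φ i p = g' • Q.φ i' p') : ∃ σ ε, sym σ ε p = p' ∧ ∀ y ∈ Icc (0 : Fin 3 → ℝ) 1,
      (∀ k, p k = 0 ∨ p k = 1 → y k = p k) → g • Q.φ i y = g' • Q.φ i' (sym σ ε y) := by
  obtain ⟨σ, ε, h1, h2⟩ := Q.compat (g'⁻¹ * g) i i' p hp p' hp' (by rw [mul_smul, h, inv_smul_smul])
  exact ⟨σ, ε, h1, fun y hy e => by rw [← h2 y hy e, mul_smul, smul_inv_smul]⟩

theorem cw_eq (hp : p ∈ Icc (0 : Fin 3 → ℝ) 1) (hp' : p' ∈ Icc (0 : Fin 3 → ℝ) 1)
    (h : g • Q.φ i p = g' • Q.φ i' p') : Q.cw g i p = Q.cw g' i' p' := by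
  obtain ⟨σ, ε, rfl, h2⟩ := compat' hp hp' h
  funext v
  rw [cw, cw]
  refine Fintype.sum_bijective _ (sc_bij σ ε) _ _ fun c => ?_
  rw [w_sc, pt_sc]
  by_cases e : w c p = 0
  · rw [e, zero_smul, zero_smul]
  · rw [h2 _ (pt_mem c) (face_of_w e)]

theorem cw_pt (g : G) (i : Q.I) (p) (c : Cn) : Q.cw g i p (g • Q.φ i (pt c)) = w c p := by
  rw [cw, Finset.sum_eq_single c (fun d _ hd => by
    rw [if_neg fun e => hd (pt_inj (Q.inj i (pt_mem _) (pt_mem _) (MulAction.injective g e))),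
      smul_zero]) (by simp), if_pos rfl, smul_eq_mul, mul_one]

theorem eq_of_cw (hp : p ∈ Icc (0 : Fin 3 → ℝ) 1) (hp' : p' ∈ Icc (0 : Fin 3 → ℝ) 1)
    (h : Q.cw g i p = Q.cw g' i' p') : g • Q.φ i p = g' • Q.φ i' p' := by
  obtain ⟨c, hc, hf⟩ := exists_top hp
  rw [← cw_pt g i, h] at hc
  obtain ⟨c', -, e⟩ := Finset.exists_ne_zero_of_sum_ne_zero hc.ne'
  obtain ⟨σ, ε, -, h2⟩ := compat' (pt_mem c) (pt_mem c')
    (Eq.symm (by_contra fun e' => e (by rw [if_neg e', smul_zero])))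
  have h3 := h2 p hp hf
  have h4 := (cw_eq hp (sym_mem σ ε hp) h3).symm.trans h
  rw [h3, ← sum_w_pt (sym_mem σ ε hp), ← sum_w_pt hp']
  simp only [← cw_pt g' i', h4]

theorem tri [T2Space Z] [LocallyCompactSpace Z] [ContinuousConstSMul G Z]
    [ProperlyDiscontinuousSMul G Z] [Nonempty Z] (Q : Cub G Z) : Nonempty (Tri G Z) := by
  have := Q.fin
  have e : ∀ (g : G) i σ ε, ∀ t ∈ stdSimplex ℝ (Fin 4),
      co (fun j => g • Q.φ i (pt (sc σ ε (fl j)))) t = Q.cw g i (sym σ ε (std t)) :=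
    fun g i σ ε t ht => funext fun v => by
      rw [cw, sum_w ht]
      simp [co]
  refine Simp.tri {
    J := Q.I × Equiv.Perm (Fin 3) × (Fin 3 → Bool)
    fin := inferInstance
    ψ := fun a t => Q.φ a.1 (sym a.2.1 a.2.2 (std t))
    vx := fun a j => Q.φ a.1 (pt (sc a.2.1 a.2.2 (fl j)))
    cont := fun a => (Q.cont a.1).comp (Continuous.continuousOn ?_)
      fun t ht => sym_mem _ _ (std_mem ht)
    inj := fun a j j' h => fl_inj ((sc_bij _ _).1 (pt_inj (Q.inj _ (pt_mem _) (pt_mem _) h)))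
    cover := fun z => ?_
    compat := fun g g' a a' t ht t' ht' => ?_ }
  · refine continuous_pi fun k => ?_
    unfold sym std
    split_ifs <;> fun_prop
  · obtain ⟨g, i, p, hp, rfl⟩ := Q.cover z
    obtain ⟨σ, ε, t, ht, rfl⟩ := exists_std hp
    exact ⟨g, (i, σ, ε), t, ht, rfl⟩
  · rw [e _ _ _ _ t ht, e _ _ _ _ t' ht']
    exact ⟨cw_eq (sym_mem _ _ (std_mem ht)) (sym_mem _ _ (std_mem ht')),
      eq_of_cw (sym_mem _ _ (std_mem ht)) (sym_mem _ _ (std_mem ht'))⟩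

theorem cocompact (Q : Cub G Z) :
    ∃ C : Set Z, IsCompact C ∧ ∀ z : Z, ∃ g : G, g • z ∈ C := by
  have := Q.fin
  refine ⟨⋃ i, Q.φ i '' Icc 0 1,
    isCompact_iUnion fun i => isCompact_Icc.image_of_continuousOn (Q.cont i), fun z => ?_⟩
  obtain ⟨g, i, p, hp, rfl⟩ := Q.cover z
  exact ⟨g⁻¹, mem_iUnion.2 ⟨i, p, hp, (inv_smul_smul _ _).symm⟩⟩

end Cub

end Vale.Agent.P260Z.L2
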