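import Mathlib

/-!
# P260, layer 2: boundary collars, triangulations, cone neighbourhoods (definitions)
-/

noncomputable section

namespace Vale.Agent.P260Z.L2

open Set Topology

/-- the closed half space of `ℝ³ × ℝ` -/
def Hs : Set ((Fin 3 → ℝ) × ℝ) := {y | 0 ≤ y.2}

/-- every point of `X` has a half space chart, and `range j` is the boundary -/
def HS {Z X : Type} [TopologicalSpace X] (j : Z → X) : Prop :=
  ∀ x : X, ∃ (O : Set X) (N : Set ((Fin 3 → ℝ) × ℝ)) (φ : X → (Fin 3 → ℝ) × ℝ)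
    (ψ : (Fin 3 → ℝ) × ℝ → X), IsOpen O ∧ IsOpen N ∧ x ∈ O ∧ ContinuousOn φ O ∧
    ContinuousOn ψ (N ∩ Hs) ∧ MapsTo φ O (N ∩ Hs) ∧ MapsTo ψ (N ∩ Hs) O ∧
    (∀ y ∈ O, ψ (φ y) = y) ∧ (∀ v ∈ N ∩ Hs, φ (ψ v) = v) ∧
    ∀ y ∈ O, y ∈ range j ↔ (φ y).2 = 0

/-- compact parts of `X` embed in `ℝ⁴` -/
def DEV (X : Type) [TopologicalSpace X] : Prop :=
  ∀ C : Set X, IsCompact C → ∃ f : X → Fin 4 → ℝ, ContinuousOn f C ∧ InjOn f C

/-- a symmetry of the unit cube -/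
def sym (σ : Equiv.Perm (Fin 3)) (ε : Fin 3 → Bool) (y : Fin 3 → ℝ) : Fin 3 → ℝ :=
  fun i => if ε i then 1 - y (σ i) else y (σ i)

/-- a structure of cube complex with finitely many orbits of cubes -/
structure Cub (G Z : Type) [Group G] [TopologicalSpace Z] [MulAction G Z] where
  /-- orbits of cubes -/
  I : Type
  fin : Finite I
  /-- the cubes -/
  φ : I → (Fin 3 → ℝ) → Z
  cont : ∀ i, ContinuousOn (φ i) (Icc 0 1)
  inj : ∀ i, InjOn (φ i) (Icc 0 1)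
  cover : ∀ z : Z, ∃ (g : G) (i : I), ∃ p ∈ Icc (0 : Fin 3 → ℝ) 1, g • φ i p = z
  compat : ∀ (g : G) (i i' : I), ∀ p ∈ Icc (0 : Fin 3 → ℝ) 1, ∀ p' ∈ Icc (0 : Fin 3 → ℝ) 1,
    g • φ i p = φ i' p' → ∃ σ ε, sym σ ε p = p' ∧ ∀ y ∈ Icc (0 : Fin 3 → ℝ) 1,
      (∀ k, p k = 0 ∨ p k = 1 → y k = p k) → g • φ i y = φ i' (sym σ ε y)

/-- a locally finite simplicial complex of dimension at most three -/
structure SC (V : Type) where
  /-- the simplices -/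
  face : Finset V → Prop
  ne : ∀ {s}, face s → s.Nonempty
  down : ∀ {s t}, face s → t ⊆ s → t.Nonempty → face t
  card_le : ∀ {s}, face s → s.card ≤ 4
  lf : ∀ v, {s | face s ∧ v ∈ s}.Finite

/-- the geometric realisation -/
def SC.real {V : Type} (K : SC V) : Set (V → ℝ) :=
  {x | (∀ v, 0 ≤ x v) ∧ ∃ s, K.face s ∧ (∀ v, v ∉ s → x v = 0) ∧ ∑ v ∈ s, x v = 1}

/-- an invariant triangulation -/
structure Tri (G Z : Type) [Group G] [TopologicalSpace Z] [MulAction G Z] where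
  /-- vertices -/
  V : Type
  [act : MulAction G V]
  /-- the complex -/
  K : SC V
  face_smul : ∀ (g : G) {s t : Finset V}, K.face s → (∀ v, v ∈ t ↔ g⁻¹ • v ∈ s) → K.face t
  /-- the point with given barycentric coordinates -/
  ι : (V → ℝ) → Z
  /-- barycentric coordinates -/
  bc : Z → V → ℝ
  ι_cont : ContinuousOn ι K.real
  bc_cont : Continuous bc
  bc_mem : ∀ z, bc z ∈ K.real
  bc_ι : ∀ x ∈ K.real, bc (ι x) = x
  ι_bc : ∀ z, ι (bc z) = z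
  bc_smul : ∀ (g : G) z v, bc (g • z) (g • v) = bc z v

attribute [instance] Tri.act

/-- an invariant collar -/
structure Collar (G : Type) {Z X : Type} [Group G] [TopologicalSpace Z] [TopologicalSpace X]
    [MulAction G Z] [MulAction G X] (j : Z → X) where
  /-- the collar -/
  c : Z × ℝ → X
  /-- the foot point -/
  pr : X → Z
  /-- the height -/
  ht : X → ℝ
  c_cont : ContinuousOn c (univ ×ˢ Ico 0 1)
  ht_cont : Continuous ht
  pr_cont : ContinuousOn pr {x | ht x < 1}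
  ht_nonneg : ∀ x, 0 ≤ ht x
  pr_c : ∀ z, ∀ h ∈ Ico (0 : ℝ) 1, pr (c (z, h)) = z
  ht_c : ∀ z, ∀ h ∈ Ico (0 : ℝ) 1, ht (c (z, h)) = h
  c_pr : ∀ x, ht x < 1 → c (pr x, ht x) = x
  c_zero : ∀ z, c (z, 0) = j z
  c_smul : ∀ (g : G) z, ∀ h ∈ Ico (0 : ℝ) 1, c (g • z, h) = g • c (z, h)
  ht_smul : ∀ (g : G) x, ht (g • x) = ht x

/-- a cone neighbourhood `{r < 1}` of the point `p` -/
structure ConeAt (Z : Type) [TopologicalSpace Z] where
  /-- the cone point -/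
  p : Z
  /-- the radius -/
  r : Z → ℝ
  /-- the dilations -/
  ctr : ℝ → Z → Z
  r_cont : Continuous r
  r_nonneg : ∀ z, 0 ≤ r z
  r_p : r p = 0
  eq_p : ∀ z, r z = 0 → z = p
  cpt : ∀ ρ < 1, IsCompact {z | r z ≤ ρ}
  ctr_cont : ContinuousOn (fun y : ℝ × Z => ctr y.1 y.2)
    {y | 0 ≤ y.1 ∧ r y.2 < 1 ∧ y.1 * r y.2 < 1}
  r_ctr : ∀ μ z, 0 ≤ μ → r z < 1 → μ * r z < 1 → r (ctr μ z) = μ * r z
  ctr_one : ∀ z, r z < 1 → ctr 1 z = z
  ctr_ctr : ∀ μ ν z, 0 ≤ μ → 0 ≤ ν → r z < 1 → ν * r z < 1 → μ * ν * r z < 1 →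
    ctr μ (ctr ν z) = ctr (μ * ν) z

/-- the coordinates on `s` are larger than all the others -/
def Pos {V : Type} (s : Finset V) (x : V → ℝ) : Prop :=
  ∃ θ, 0 ≤ θ ∧ (∀ v ∈ s, θ < x v) ∧ ∀ v, v ∉ s → x v ≤ θ

end Vale.Agent.P260Z.L2
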