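import Vale.Agent.P260Z.L2.Defs
import Vale.Agent.P260Z.Dav.Sk

/-!
# P260, layer 2: the geometric input of the reflection group construction
-/

noncomputable section

namespace Vale.Agent.P260Z.L2

open Set Topology

/-- an equivariant plane whose translates are disjoint -/
def Pl {G X : Type} [Group G] [TopologicalSpace X] [MulAction G X] (J : Subgroup G) (E : Type)
    [TopologicalSpace E] [MulAction J E] (ψ : J →* J) (p : E → X) : Prop :=
  Function.Injective ψ ∧ Continuous p ∧ (∀ (j : J) u, p (j • u) = (ψ j : G) • p u) ∧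
    ∀ g : G, g ∉ J → ∀ u u', g • p u ≠ p u'

/-- `X` is a contractible manifold with boundary `Z` and a free cocompact action -/
structure Side (G : Type) {Z X : Type} [Group G] [TopologicalSpace Z] [TopologicalSpace X]
    [MulAction G Z] [MulAction G X] (j : Z → X) : Prop where
  nice : Nice G X
  emb : IsClosedEmbedding j
  smul : ∀ (g : G) z, j (g • z) = g • j z
  hs : HS j
  ae : AE (univ : Set X)

/-- two fillings of one boundary, one of which contains a plane -/
structure Geo (G Z X X' E : Type) [Group G] [TopologicalSpace Z] [TopologicalSpace X]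
    [TopologicalSpace X'] [TopologicalSpace E] [MulAction G Z] [MulAction G X]
    [MulAction G X'] where
  /-- the first filling -/
  j : Z → X
  /-- the second filling -/
  j' : Z → X'
  side : Side G j
  side' : Side G j'
  nonempty : Nonempty Z
  /-- the cubes of the boundary -/
  cub : Cub G Z
  dev : DEV X
  two : ∀ g : G, g ^ 2 = 1 → g = 1
  /-- the Klein bottle group -/
  J : Subgroup G
  [mul : MulAction J E]
  /-- a generator -/
  u : J
  /-- a generator -/
  v : J
  sq : u ^ 2 = v ^ 2
  ne : u ≠ v
  gen : Subgroup.closure {u, v} = ⊤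
  gk : ∀ a b : G, a ^ 2 = b ^ 2 → a ≠ b → ∃ g : G, g * a * g⁻¹ ∈ J ∧ g * b * g⁻¹ ∈ J
  cpt : ∃ K : Set E, IsCompact K ∧ ∀ y, ∃ j : J, j • y ∈ K
  plane : ∃ p : E → X', Pl J E (MonoidHom.id J) p
  obs : ∀ ψ (p : E → X), ¬ Pl J E ψ p

/-- the main theorem of layer 2 -/
def L2MAIN : Prop :=
  ∀ (G Z X X' E : Type) [Group G] [TopologicalSpace Z] [TopologicalSpace X]
    [TopologicalSpace X'] [TopologicalSpace E] [MulAction G Z] [MulAction G X] [MulAction G X'],
    Geo G Z X X' E → ∃ (S : Type) (_ : MulAction G S), Nonempty (Pair G S E)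

end Vale.Agent.P260Z.L2
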