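import Vale.Agent.P260Z.L2.Q
import Vale.Agent.P260Z.L2.Cm
import Vale.Agent.P260Z.L2.Abs
import Vale.Agent.P260Z.L2.Sk

/-!
# P260, layer 2: the chamber with its collar
-/

set_option linter.unusedSectionVars false

noncomputable section

namespace Vale.Agent.P260Z.L2

open Set Topology
open scoped Pointwise Classical

theorem isClosedEmbedding_of_inv {A B : Type} [TopologicalSpace A] [TopologicalSpace B]
    {s : Set A} {t : Set B} {f : A → B} {g : B → A} (ht : IsClosed t) (hf : ContinuousOn f s)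
    (hg : ContinuousOn g t) (mf : MapsTo f s t) (mg : MapsTo g t s) (gf : ∀ x ∈ s, g (f x) = x)
    (fg : ∀ y ∈ t, f (g y) = y) : IsClosedEmbedding (s.domRestrict f) := by
  let e : s ≃ₜ t :=
    { toFun := fun x => ⟨f x, mf x.2⟩
      invFun := fun y => ⟨g y, mg y.2⟩
      left_inv := fun x => Subtype.ext (gf x x.2)
      right_inv := fun y => Subtype.ext (fg y y.2)
      continuous_toFun := hf.domRestrict.subtype_mk _
      continuous_invFun := hg.domRestrict.subtype_mk _ }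
  exact ht.isClosedEmbedding_subtypeVal.comp e.isClosedEmbedding

theorem HS.chart {Z X : Type} [TopologicalSpace X] {j : Z → X} (H : HS j) {x : X}
    (hx : x ∉ range j) : ∃ e : OpenPartialHomeomorph X E4, x ∈ e.source := by
  obtain ⟨O, N, φ, ψ, oO, oN, hxO, cφ, cψ, mφ, mψ, ψφ, φψ, bd⟩ := H x
  have o1 : IsOpen {y : (Fin 3 → ℝ) × ℝ | 0 < y.2} := isOpen_lt continuous_const continuous_snd
  have s1 : N ∩ {y : (Fin 3 → ℝ) × ℝ | 0 < y.2} ⊆ N ∩ Hs := fun y hy =>
    ⟨hy.1, show 0 ≤ y.2 from le_of_lt hy.2⟩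
  let e : OpenPartialHomeomorph X ((Fin 3 → ℝ) × ℝ) :=
    { toFun := φ
      invFun := ψ
      source := O ∩ φ ⁻¹' {y | 0 < y.2}
      target := N ∩ {y | 0 < y.2}
      map_source' := fun y hy => ⟨(mφ hy.1).1, hy.2⟩
      map_target' := fun y hy => ⟨mψ (s1 hy), by
        show φ (ψ y) ∈ {y : (Fin 3 → ℝ) × ℝ | 0 < y.2}
        rw [φψ y (s1 hy)]
        exact hy.2⟩
      left_inv' := fun y hy => ψφ y hy.1
      right_inv' := fun y hy => φψ y (s1 hy)
      open_source := cφ.isOpen_inter_preimage oO o1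
      open_target := oN.inter o1
      continuousOn_toFun := cφ.mono inter_subset_left
      continuousOn_invFun := cψ.mono s1 }
  let L : ((Fin 3 → ℝ) × ℝ) ≃L[ℝ] E4 := ContinuousLinearEquiv.ofFinrankEq (by simp)
  exact ⟨e.transHomeomorph L.toHomeomorph, hxO,
    lt_of_le_of_ne (mφ hxO).2 fun h => hx ((bd x hxO).2 h.symm)⟩

section
variable {G S : Type} [Group G] [MulAction G S] {C : CG G S}

open CG.ConeA

theorem mx_smul {a : ℝ} (ha : 0 ≤ a) {q : S → ℝ} (h : q ∈ C.Cone) (h' : a • q ∈ C.Cone)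
    (σ : Set S) : mx σ (a • q) = a * mx σ q := by
  refine le_antisymm ?_ ?_
  · rcases mx_eq σ h' with e | ⟨s, hs, e⟩
    · rw [e]; exact mul_nonneg ha (mx_nonneg σ h)
    · rw [e]; exact mul_le_mul_of_nonneg_left (le_mx h hs) ha
  · rcases mx_eq σ h with e | ⟨s, hs, e⟩
    · rw [e, mul_zero]; exact mx_nonneg σ h'
    · rw [e]; exact le_mx h' hs

theorem mem_col {q : S → ℝ} : q ∈ C.Col ↔ q ∈ C.Cone ∧ 1 / 2 ≤ mx univ q ∧ mx univ q ≤ 1 := by
  constructor
  · rintro ⟨h, h1, s, hs⟩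
    refine ⟨h, hs.trans (le_mx h trivial), ?_⟩
    rcases mx_eq univ h with e | ⟨t, -, e⟩
    · rw [e]; exact zero_le_one
    · rw [e]; exact h1 t
  · rintro ⟨h, h1, h2⟩
    refine ⟨h, fun s => (le_mx h (mem_univ s)).trans h2, ?_⟩
    rcases mx_eq univ h with e | ⟨t, -, e⟩
    · rw [e] at h1; norm_num at h1
    · exact ⟨t, e ▸ h1⟩

theorem lt_mx {q : S → ℝ} (h : q ∈ C.Cone) {a : ℝ} (ha : 0 ≤ a) :
    a < mx univ q ↔ ∃ s, a < q s := by
  constructor
  · intro h1
    rcases mx_eq univ h with e | ⟨t, -, e⟩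
    · rw [e] at h1; exact absurd h1 (not_lt.2 ha)
    · exact ⟨t, e ▸ h1⟩
  · rintro ⟨s, hs⟩
    exact hs.trans_le (le_mx h trivial)

theorem mx_sh (g : G) (q : S → ℝ) : mx univ (sh g q) = mx univ q := by
  unfold mx
  rw [image_univ, image_univ]
  exact congrArg (fun A => sSup (insert 0 A)) ((MulAction.surjective g⁻¹).range_comp q)

theorem col_pos {q : S → ℝ} (h : q ∈ C.Col) : q ∈ C.Cone ∧ ∃ s, 0 < q s :=
  ⟨h.1, h.2.2.imp fun _ hs => lt_of_lt_of_le (by norm_num) hs⟩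

end

variable {G Z X : Type} [Group G] [TopologicalSpace Z] [TopologicalSpace X] [MulAction G Z]
  [MulAction G X]

namespace Tri

variable (T : Tri G Z)

/-- the point of the boundary in the direction `q` -/
def zo (q : T.S → ℝ) : Z := T.ι (T.xo ((T.tot q)⁻¹ • q))

/-- chain coordinates of a point of the boundary -/
def gz (z : Z) : T.S → ℝ := T.gap (T.bc z)

/-- the point of the collar with coordinates `q` -/
def cq {j : Z → X} (c : Collar G j) (q : T.S → ℝ) : X := c.c (T.zo q, 1 - mx univ q)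

/-- the coordinates of a point of the collar -/
def uq {j : Z → X} (c : Collar G j) (x : X) : T.S → ℝ :=
  ((1 - c.ht x) * (mx univ (T.gz (c.pr x)))⁻¹) • T.gz (c.pr x)

variable {T}

theorem nq_mem {q : T.S → ℝ} (h : q ∈ T.Cn) (hs : ∃ s, 0 < q s) :
    (T.tot q)⁻¹ • q ∈ T.Cn ∧ T.xo ((T.tot q)⁻¹ • q) ∈ T.K.real := by
  obtain ⟨s, hs⟩ := hs
  have h1 := tot_pos h hs
  have h2 := smul_mem (inv_pos.2 h1).le h
  exact ⟨h2, xo_mem h2 (by rw [tot_smul _ h, inv_mul_cancel₀ h1.ne'])⟩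

theorem gz_zo {q : T.S → ℝ} (h : q ∈ T.Cn) (hs : ∃ s, 0 < q s) :
    T.gz (T.zo q) = (T.tot q)⁻¹ • q := by
  rw [gz, zo, T.bc_ι _ (nq_mem h hs).2, gap_xo (nq_mem h hs).1]

theorem gz_mem (z : Z) : T.gz z ∈ T.Cn := (gap_spec (T.bc_mem z)).1

theorem gz_pos (z : Z) : ∃ s, 0 < T.gz z s := by
  obtain ⟨c, hc⟩ := supp_fin (gz_mem (T := T) z)
  have h1 : T.tot (T.gz z) = 1 := (gap_spec (T.bc_mem z)).2.1
  rw [tot_eq (c := c) fun s hs => (hc s).2 hs] at h1
  obtain ⟨s, hs⟩ := Finset.nonempty_of_sum_ne_zero (h1.trans_ne one_ne_zero)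
  exact ⟨s, ((gz_mem z).1 s).lt_of_ne' ((hc s).1 hs)⟩

theorem zo_gz {a : ℝ} (ha : 0 < a) (z : Z) : T.zo (a • T.gz z) = z := by
  have h1 : T.tot (T.gz z) = 1 := (gap_spec (T.bc_mem z)).2.1
  have h2 : T.xo (T.gz z) = T.bc z := (gap_spec (T.bc_mem z)).2.2
  rw [zo, tot_smul _ (gz_mem z), h1, mul_one, smul_smul, inv_mul_cancel₀ ha.ne', one_smul, h2,
    T.ι_bc]

theorem gz_cont : Continuous T.gz := gap_cont.comp T.bc_cont

theorem zo_sh (g : G) {q : T.S → ℝ} (h : q ∈ T.Cn) (hs : ∃ s, 0 < q s) (h' : sh g q ∈ T.Cn) :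
    T.zo (sh g q) = g • T.zo q := by
  have hs' : ∃ s, 0 < sh g q s := by
    obtain ⟨s, hs⟩ := hs
    exact ⟨g • s, by simpa [sh] using hs⟩
  refine T.bc_ext (funext fun v => ?_)
  have h1 := T.bc_smul g (T.zo q) (g⁻¹ • v)
  rw [smul_inv_smul] at h1
  rw [h1, zo, zo, T.bc_ι _ (nq_mem h hs).2, T.bc_ι _ (nq_mem h' hs').2, xo_smul, xo_smul, tot_sh,
    Pi.smul_apply, Pi.smul_apply, ← xo_sh g q, smul_inv_smul]

variable [SigmaCompactSpace Z] {free : ∀ (g : G) (z : Z), g • z = z → g = 1} {cnt : Countable G}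
  {two : ∀ g : G, g ^ 2 = 1 → g = 1} {j : Z → X} (c : Collar G j)

theorem tot_cont : ContinuousOn T.tot {q | q ∈ (T.cg free cnt two).Cone ∧ ∃ s, 0 < q s} := by
  intro q hq
  obtain ⟨F, hF, h⟩ := CG.ConeA.lf (C := T.cg free cnt two) hq.2
  have h1 : Continuous fun q : T.S → ℝ => ∑ s ∈ hF.toFinset, (s.1.card : ℝ) * q s := by fun_prop
  refine ContinuousWithinAt.mono (t := (T.cg free cnt two).Cone) ?_ fun _ h => h.1
  refine h1.continuousWithinAt.congr_of_eventuallyEq ?_ ?_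
  · filter_upwards [h] with q' h2
    exact tot_eq fun s hs => hF.mem_toFinset.2 (h2 s hs)
  · exact tot_eq fun s hs => hF.mem_toFinset.2 (h.self_of_nhdsWithin hq.1 s hs)

theorem zo_cont : ContinuousOn T.zo {q | q ∈ (T.cg free cnt two).Cone ∧ ∃ s, 0 < q s} :=
  T.ι_cont.comp (xo_cont.comp_continuousOn ((tot_cont.inv₀ fun _ h =>
    (tot_pos h.1 h.2.choose_spec).ne').smul continuousOn_id)) fun _ h => (nq_mem h.1 h.2).2

include free cnt two in
theorem mx_gz_pos (z : Z) : 0 < mx univ (T.gz z) :=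
  (lt_mx (C := T.cg free cnt two) (gz_mem z) le_rfl).2 (gz_pos z)

theorem col_ht {q : T.S → ℝ} (h : q ∈ (T.cg free cnt two).Col) :
    1 - mx univ q ∈ Ico (0 : ℝ) 1 := by
  obtain ⟨-, h1, h2⟩ := mem_col.1 h
  constructor <;> linarith

theorem ht_cq {q : T.S → ℝ} (h : q ∈ (T.cg free cnt two).Col) :
    c.ht (T.cq c q) = 1 - mx univ q := c.ht_c _ _ (col_ht h)

theorem uq_cq {q : T.S → ℝ} (h : q ∈ (T.cg free cnt two).Col) : T.uq c (T.cq c q) = q := by
  have h1 : c.pr (T.cq c q) = T.zo q := c.pr_c _ _ (col_ht h)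
  obtain ⟨h2, h3⟩ := col_pos h
  have h4 := tot_pos h2 h3.choose_spec
  have h5 : 0 < mx univ q := (lt_mx h2 le_rfl).2 h3
  rw [uq, ht_cq c h, h1, gz_zo h2 h3, mx_smul (C := T.cg free cnt two) (inv_pos.2 h4).le h2
    (nq_mem h2 h3).1, smul_smul, sub_sub_cancel]
  have : mx univ q * ((T.tot q)⁻¹ * mx univ q)⁻¹ * (T.tot q)⁻¹ = 1 := by field_simp
  rw [this, one_smul]

include free cnt two in
theorem uq_pos {x : X} (h : c.ht x < 1) : 0 < (1 - c.ht x) * (mx univ (T.gz (c.pr x)))⁻¹ :=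
  mul_pos (sub_pos.2 h) (inv_pos.2 (mx_gz_pos (free := free) (cnt := cnt) (two := two) _))

theorem uq_cone {x : X} (h : c.ht x < 1) : T.uq c x ∈ (T.cg free cnt two).Cone :=
  smul_mem (uq_pos (free := free) (cnt := cnt) (two := two) c h).le (gz_mem _)

include free cnt two in
theorem mx_uq {x : X} (h : c.ht x < 1) : mx univ (T.uq c x) = 1 - c.ht x := by
  rw [uq, mx_smul (C := T.cg free cnt two) (uq_pos (free := free) (cnt := cnt) (two := two) c h).le
    (gz_mem _) (uq_cone c h), mul_assoc,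
    inv_mul_cancel₀ (mx_gz_pos (free := free) (cnt := cnt) (two := two) _).ne', mul_one]

theorem uq_mem {x : X} (h : c.ht x ≤ 1 / 2) : T.uq c x ∈ (T.cg free cnt two).Col := by
  have h1 : c.ht x < 1 := by linarith
  refine mem_col.2 ⟨uq_cone c h1, ?_⟩
  rw [mx_uq (free := free) (cnt := cnt) (two := two) c h1]
  constructor <;> linarith [c.ht_nonneg x]

include free cnt two in
theorem cq_uq {x : X} (h : c.ht x < 1) : T.cq c (T.uq c x) = x := by
  rw [cq, mx_uq (free := free) (cnt := cnt) (two := two) c h, uq,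
    zo_gz (uq_pos (free := free) (cnt := cnt) (two := two) c h), sub_sub_cancel, c.c_pr x h]

theorem cq_cont : ContinuousOn (T.cq c) (T.cg free cnt two).Col :=
  c.c_cont.comp ((zo_cont.mono fun _ h => col_pos h).prodMk (continuousOn_const.sub
    ((CG.ConeA.mx_cont univ).mono fun _ h => col_pos h))) fun _ h => ⟨trivial, col_ht h⟩

include free cnt two in
theorem uq_cont : ContinuousOn (T.uq c) {x | c.ht x < 1} := by
  have h1 : ContinuousOn (fun x => T.gz (c.pr x)) {x | c.ht x < 1} :=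
    gz_cont.comp_continuousOn c.pr_cont
  exact ((continuous_const.sub c.ht_cont).continuousOn.mul
    (((CG.ConeA.mx_cont (C := T.cg free cnt two) univ).comp h1 fun x _ =>
      ⟨gz_mem _, gz_pos _⟩).inv₀ fun x _ =>
        (mx_gz_pos (free := free) (cnt := cnt) (two := two) _).ne')).smul h1

theorem cq_bd {q : T.S → ℝ} (h : q ∈ (T.cg free cnt two).Col) {s : T.S} (hs : q s = 1) :
    T.cq c q = j (T.zo q) := by
  have h1 : mx univ q = 1 := le_antisymm (mem_col.1 h).2.2 (hs ▸ CG.ConeA.le_mx h.1 trivial)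
  rw [cq, h1, sub_self, c.c_zero]

variable (T free cnt two)

/-- the chamber -/
def davis (h : Side G j) : DavisData (T.cg free cnt two) where
  X := X
  t2 := h.nice.t2
  lc := h.nice.lc
  sc := h.nice.sc
  cts := h.nice.cts
  pd := h.nice.pd
  fr := h.nice.fr
  c := T.cq c
  c_emb := isClosedEmbedding_of_inv (t := {x | c.ht x ≤ 1 / 2}) (g := T.uq c)
    (isClosed_le c.ht_cont continuous_const) (cq_cont c)
    ((uq_cont (free := free) (cnt := cnt) (two := two) c).mono fun x (hx : c.ht x ≤ 1 / 2) =>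
      show c.ht x < 1 by linarith)
    (fun q hq => show c.ht _ ≤ 1 / 2 by rw [ht_cq c hq]; linarith [(mem_col.1 hq).2.1])
    (fun _ hx => uq_mem c hx) (fun _ hq => uq_cq c hq)
    fun x (hx : c.ht x ≤ 1 / 2) => cq_uq (free := free) (cnt := cnt) (two := two) c (by linarith)
  c_open := by
    have : T.cq c '' {q | q ∈ (T.cg free cnt two).Col ∧ ∃ s, 1 / 2 < q s} =
        {x | c.ht x < 1 / 2} := by
      ext x
      constructor
      · rintro ⟨q, ⟨hq, h1⟩, rfl⟩
        have := (lt_mx hq.1 (by norm_num)).2 h1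
        show c.ht _ < 1 / 2
        rw [ht_cq c hq]
        linarith
      · intro (hx : c.ht x < 1 / 2)
        have h1 : c.ht x < 1 := by linarith
        refine ⟨T.uq c x, ⟨uq_mem c hx.le, (lt_mx (uq_cone (free := free) (cnt := cnt) (two := two)
          c h1) (by norm_num)).1 ?_⟩, cq_uq (free := free) (cnt := cnt) (two := two) c h1⟩
        rw [mx_uq (free := free) (cnt := cnt) (two := two) c h1]
        linarith
    rw [this]
    exact c.isOpen_lt _
  c_smul g q hq := by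
    rw [cq, cq, mx_sh, zo_sh g hq.1 (col_pos hq).2 (DavisData.sh_mem_Col g hq).1,
      c.c_smul g _ _ (col_ht hq)]
  chart x hx := h.hs.chart fun h1 => hx (by
    have h2 := c.ht_eq_zero.2 h1
    have h3 : c.ht x < 1 := by rw [h2]; exact one_pos
    have h4 : T.uq c x ∈ (T.cg free cnt two).Col := uq_mem c (by rw [h2]; norm_num)
    refine ⟨T.uq c x, ⟨h4, ?_⟩, cq_uq (free := free) (cnt := cnt) (two := two) c h3⟩
    have h5 := mx_uq (T := T) (free := free) (cnt := cnt) (two := two) c h3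
    rw [h2, sub_zero] at h5
    rcases CG.ConeA.mx_eq univ h4.1 with e | ⟨s, -, e⟩
    · rw [e] at h5; norm_num at h5
    · exact ⟨s, e ▸ h5⟩)
  ae := h.ae
  cpt := h.nice.cpt

theorem davis_abs [T2Space Z] [LocallyCompactSpace Z] (h : Side G j) (D : DEV X) :
    (T.davis free cnt two c h).Abs := by
  intro σ hne hσ K hK
  have := h.nice.t2
  have hfin : σ.Finite := CG.ConeA.clique_fin hσ
  obtain ⟨s₀, hs₀, hm⟩ := exists_min_image σ (fun s => s.1.card) hfin hne
  have h0 : ∀ s ∈ σ, s₀.1 ⊆ s.1 := fun s hs => by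
    by_cases e : s₀ = s
    · exact e ▸ subset_rfl
    · refine (hσ hs₀ hs e).2.elim id fun h1 => ?_
      rw [Finset.eq_of_subset_of_card_le h1 (hm s hs)]
  obtain ⟨A, hp, hA⟩ := T.cone s₀.2
  have hB : IsCompact (T.zo '' (T.cg free cnt two).Bs σ) :=
    (CG.ConeA.cpt_Bs hfin).image_of_continuousOn (zo_cont.mono fun _ h => col_pos h.1)
  obtain ⟨κ, cκ, iκ, mκ, fκ⟩ := abs1 c h.hs D A (N := ⋃ s ∈ σ, {z | Pos s.1 (T.bc z)})
    (isOpen_biUnion fun s _ => T.isOpen_pos s.1 (T.K.ne s.2)) (mem_biUnion hs₀ hp)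
    (fun z hz => by
      obtain ⟨s, hs, h1⟩ := mem_iUnion₂.1 hz
      exact (hA s.1 (h0 s hs) z h1).1)
    (fun z hz μ h2 h3 => by
      obtain ⟨s, hs, h1⟩ := mem_iUnion₂.1 hz
      exact mem_biUnion hs ((hA s.1 (h0 s hs) z h1).2 μ h2 h3))
    hB (by
      rintro _ ⟨q, ⟨hq, s, hs, h1⟩, rfl⟩
      refine mem_biUnion hs ((pos_iff (T.bc_mem _) s).1 ?_)
      obtain ⟨h2, h3⟩ := col_pos hq
      show 0 < T.gz (T.zo q) s
      rw [gz_zo h2 h3, Pi.smul_apply, h1, smul_eq_mul, mul_one]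
      exact inv_pos.2 (tot_pos h2 h3.choose_spec)) hK
  have lt1 : ∀ x ∈ K, c.ht (κ x) < 1 := fun x hx => by linarith [(mκ x hx).1]
  refine ⟨fun x => T.uq c (κ x), (uq_cont (free := free) (cnt := cnt) (two := two) c).comp cκ lt1,
    fun x hx y hy e => iκ hx hy ?_, fun x hx => ⟨uq_mem c (mκ x hx).1.le, ?_⟩, ?_⟩
  · rw [← cq_uq (T := T) (free := free) (cnt := cnt) (two := two) c (lt1 x hx),
      ← cq_uq (T := T) (free := free) (cnt := cnt) (two := two) c (lt1 y hy)]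
    exact congrArg _ e
  · obtain ⟨s, hs, h1⟩ := mem_iUnion₂.1 (mκ x hx).2
    exact ⟨s, hs, mul_pos (uq_pos (free := free) (cnt := cnt) (two := two) c (lt1 x hx))
      ((pos_iff (T.bc_mem _) s).2 h1)⟩
  · rintro q ⟨hq, s, hs, h1⟩ -
    show T.uq c (κ (T.cq c q)) = q
    rw [cq_bd c hq h1, fκ _ ⟨q, ⟨hq, s, hs, h1⟩, rfl⟩, ← cq_bd c hq h1, uq_cq c hq]

end Tri

end Vale.Agent.P260Z.L2
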