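import Vale.Agent.P260Z.L2.Defs

/-!
# P260, layer 2: chain coordinates
-/

noncomputable section

namespace Vale.Agent.P260Z.L2

open Set Topology

theorem gap_exists {V : Type} (A : Finset V) (x : V → ℝ) (h0 : ∀ v, 0 ≤ x v)
    (hA : ∀ v, v ∉ A → x v = 0) :
    ∃ (c : Finset (Finset V)) (q : Finset V → ℝ), (∀ s ∈ c, s ⊆ A ∧ s.Nonempty ∧ 0 < q s) ∧
      (∀ s ∈ c, ∀ t ∈ c, s ⊆ t ∨ t ⊆ s) ∧ (∀ s, s ∉ c → q s = 0) ∧
      ∀ v, x v = ∑ s ∈ c, (s : Set V).indicator (fun _ => q s) v := by
  classical
  induction A using Finset.strongInduction generalizing x with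
  | H A ih =>
    set S := A.filter fun v => x v ≠ 0 with hS
    have hx : ∀ v, v ∉ S → x v = 0 := fun v hv => by
      by_contra h
      exact hv (Finset.mem_filter.2 ⟨by_contra fun h' => h (hA v h'), h⟩)
    rcases S.eq_empty_or_nonempty with e | hne
    · exact ⟨∅, 0, by simp, by simp, by simp, fun v => by simpa using hx v (by simp [e])⟩
    obtain ⟨v₀, hv₀, hm⟩ := S.exists_min_image x hne
    have hSA : S ⊆ A := Finset.filter_subset _ _
    obtain ⟨c, q, h1, h2, h3, h4⟩ := ih (S.erase v₀)
      ((Finset.erase_ssubset hv₀).trans_subset hSA) (fun v => if v ∈ S then x v - x v₀ else 0)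
      (fun v => by
        split_ifs with h
        exacts [sub_nonneg.2 (hm v h), le_rfl])
      (fun v hv => by
        split_ifs with h
        · rw [show v = v₀ from by_contra fun e => hv (Finset.mem_erase.2 ⟨e, h⟩), sub_self]
        · rfl)
    have hn : S ∉ c := fun h => Finset.notMem_erase v₀ S ((h1 S h).1 hv₀)
    have hc : ∀ s ∈ c, s ⊆ S := fun s hs => (h1 s hs).1.trans (Finset.erase_subset _ _)
    have hq : ∀ s ∈ c, Function.update q S (x v₀) s = q s := fun s hs =>
      Function.update_of_ne (fun e : s = S => hn (e ▸ hs)) _ _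
    refine ⟨insert S c, Function.update q S (x v₀), fun s hs => ?_, fun s hs t ht => ?_,
      fun s hs => ?_, fun v => ?_⟩
    · rcases Finset.mem_insert.1 hs with rfl | hs
      · rw [Function.update_self]
        exact ⟨hSA, hne, (h0 _).lt_of_ne' (Finset.mem_filter.1 hv₀).2⟩
      · rw [hq s hs]
        exact ⟨(hc s hs).trans hSA, (h1 s hs).2⟩
    · rcases Finset.mem_insert.1 hs with rfl | hs
      · rcases Finset.mem_insert.1 ht with rfl | ht
        exacts [Or.inl subset_rfl, Or.inr (hc t ht)]
      · rcases Finset.mem_insert.1 ht with rfl | ht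
        exacts [Or.inl (hc s hs), h2 s hs t ht]
    · rw [Finset.mem_insert, not_or] at hs
      rw [Function.update_of_ne hs.1, h3 s hs.2]
    · rw [Finset.sum_insert hn, Function.update_self,
        Finset.sum_congr rfl fun s hs => by rw [hq s hs], ← h4 v]
      by_cases h : v ∈ S
      · simp [h]
      · simp [h, hx v h]

end Vale.Agent.P260Z.L2
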