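import Vale.Agent.P260Z.L2.Dv
import Vale.Agent.P260Z.L2.Col
import Vale.Agent.P260Z.L2.Cub

/-!
# P260, layer 2: from two fillings of a cube complex to the data of the reflection group trick
-/

noncomputable section

namespace Vale.Agent.P260Z.L2

open Set Topology

section
variable {G Z X : Type} [Group G] [TopologicalSpace Z] [TopologicalSpace X] [MulAction G Z]
  [MulAction G X] {j : Z → X} (h : Side G j)
include h

theorem Side.free (g : G) (x : X) (e : g • x = x) : g = 1 := by
  have := h.nice.fr
  exact IsCancelSMul.eq_one_of_smul e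

theorem Side.cts : ContinuousConstSMul G Z where
  continuous_const_smul g := by
    have := h.nice.cts
    rw [h.emb.isInducing.continuous_iff]
    exact ((continuous_const_smul g).comp h.emb.continuous).congr fun z => (h.smul g z).symm

theorem Side.pd : ProperlyDiscontinuousSMul G Z where
  finite_disjoint_inter_image {K L} hK hL := by
    have := h.nice.pd
    refine (finite_disjoint_inter_image (Γ := G) (hK.image h.emb.continuous)
      (hL.image h.emb.continuous)).subset ?_
    rintro g ⟨_, ⟨z, hz, rfl⟩, h1⟩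
    exact ⟨_, ⟨j z, ⟨z, hz, rfl⟩, (h.smul g z).symm⟩, _, h1, rfl⟩

theorem Side.cnt [Nonempty Z] : Countable G := by
  have := h.nice.t2
  have := h.nice.lc
  have := h.nice.sc
  have := h.nice.cts
  have := h.nice.pd
  obtain ⟨z⟩ := ‹Nonempty Z›
  exact countable_univ_iff.1 ((Col.locallyFinite_pre (G := G)
    (isCompact_singleton (x := j z))).countable_univ fun g => ⟨g⁻¹ • j z, by simp⟩)

theorem Side.collar [Nonempty Z] (Q : Cub G Z) : Nonempty (Collar G j) := by
  have := h.nice.t2
  have := h.nice.lc
  have := h.nice.cts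
  have := h.nice.pd
  exact exists_collar h.free h.emb h.smul Q.cocompact h.hs

end

theorem l2main : L2MAIN := by
  intro G Z X X' E _ _ _ _ _ _ _ _ Γ
  have := Γ.nonempty
  have := Γ.side.nice.t2
  have := Γ.side.nice.lc
  have := Γ.side.nice.sc
  have : T2Space Z := Γ.side.emb.isEmbedding.t2Space
  have : LocallyCompactSpace Z := Γ.side.emb.locallyCompactSpace
  have : SecondCountableTopology Z := Γ.side.emb.isEmbedding.secondCountableTopology
  have := Γ.side.cts
  have := Γ.side.pd
  obtain ⟨T⟩ := Γ.cub.tri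
  obtain ⟨c⟩ := Γ.side.collar Γ.cub
  obtain ⟨c'⟩ := Γ.side'.collar Γ.cub
  have free : ∀ (g : G) (z : Z), g • z = z → g = 1 := fun g z e =>
    Γ.side.free g (Γ.j z) (by rw [← Γ.side.smul, e])
  letI := Γ.mul
  exact ⟨T.S, inferInstance, ⟨{
    C := T.cg free Γ.side.cnt Γ.two
    D := T.davis free Γ.side.cnt Γ.two c Γ.side
    D' := T.davis free Γ.side.cnt Γ.two c' Γ.side'
    J := Γ.J
    u := Γ.u
    v := Γ.v
    sq := Γ.sq
    ne := Γ.ne
    gen := Γ.gen
    gk := Γ.gk
    cpt := Γ.cpt
    plane := Γ.plane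
    abs := T.davis_abs free Γ.side.cnt Γ.two c Γ.side Γ.dev
    obs := Γ.obs }⟩⟩

end Vale.Agent.P260Z.L2
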