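import Vale.Agent.P260Z.L2.Gap
import Vale.Agent.P260Z.L2.Cone
import Vale.Agent.P260Z.Dav.Cone

/-!
# P260, layer 2: the coloured graph of the simplices of a triangulation, chain coordinates
-/

set_option linter.unusedSectionVars false

noncomputable section

namespace Vale.Agent.P260Z.L2

open Set Topology
open scoped Pointwise Classical

variable {G Z : Type} [Group G] [TopologicalSpace Z] [MulAction G Z]

namespace Tri

variable (T : Tri G Z)

/-- the simplices -/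
def S : Type := {s : Finset T.V // T.K.face s}

instance : MulAction G T.S where
  smul g s := ⟨g • s.1, T.face_smul g s.2 fun _ => Finset.inv_smul_mem_iff.symm⟩
  one_smul s := Subtype.ext (one_smul G s.1)
  mul_smul g h s := Subtype.ext (mul_smul g h s.1)

theorem smul_val (g : G) (s : T.S) : (g • s).1 = g • s.1 := rfl

/-- comparable simplices are adjacent -/
def gr : SimpleGraph T.S where
  Adj s t := s ≠ t ∧ (s.1 ⊆ t.1 ∨ t.1 ⊆ s.1)
  symm := ⟨fun _ _ h => ⟨h.1.symm, h.2.symm⟩⟩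
  loopless := ⟨fun _ h => h.1 rfl⟩

theorem star_fin (v : T.V) : {s : T.S | v ∈ s.1}.Finite :=
  ((T.K.lf v).preimage Subtype.val_injective.injOn).subset fun s hs => ⟨s.2, hs⟩

theorem sub_fin (t : Finset T.V) : {s : T.S | s.1 ⊆ t}.Finite :=
  (t.powerset.finite_toSet.preimage Subtype.val_injective.injOn).subset fun _ hs =>
    Finset.mem_coe.2 (Finset.mem_powerset.2 hs)

theorem bc_ext {z z' : Z} (h : T.bc z = T.bc z') : z = z' := by rw [← T.ι_bc z, h, T.ι_bc]

/-- the barycentre -/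
def bary (s : T.S) : T.V → ℝ := fun v => if v ∈ s.1 then (s.1.card : ℝ)⁻¹ else 0

theorem card_pos (s : T.S) : (0 : ℝ) < s.1.card := by exact_mod_cast (T.K.ne s.2).card_pos

theorem bary_mem (s : T.S) : T.bary s ∈ T.K.real := by
  refine ⟨fun v => ?_, s.1, s.2, fun v hv => if_neg hv, ?_⟩
  · unfold bary
    split_ifs
    exacts [(inv_pos.2 (T.card_pos s)).le, le_rfl]
  · rw [Finset.sum_congr rfl fun v hv => show T.bary s v = _ from if_pos hv, Finset.sum_const,
      nsmul_eq_mul, mul_inv_cancel₀ (T.card_pos s).ne']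

theorem pos_bary (s : T.S) : Pos s.1 (T.bary s) :=
  ⟨0, le_rfl, fun v hv => by rw [bary, if_pos hv]; exact inv_pos.2 (T.card_pos s),
    fun v hv => by rw [bary, if_neg hv]⟩

theorem countable [SigmaCompactSpace Z] : Countable T.S := by
  have h : LocallyFinite fun s : T.S => {z | Pos s.1 (T.bc z)} := by
    intro z
    obtain ⟨h0, t, -, -, h1⟩ := T.bc_mem z
    obtain ⟨v, -, hv⟩ := Finset.exists_ne_zero_of_sum_ne_zero (h1.trans_ne one_ne_zero)
    refine ⟨{z' | 0 < T.bc z' v}, (isOpen_lt continuous_const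
      ((continuous_apply v).comp T.bc_cont)).mem_nhds ((h0 v).lt_of_ne' hv),
      ((T.star_fin v).biUnion fun t _ => T.sub_fin t.1).subset ?_⟩
    rintro s ⟨z', ⟨θ, h2, h3, -⟩, h4⟩
    obtain ⟨-, t', ht', h5, -⟩ := T.bc_mem z'
    refine mem_iUnion₂.2 ⟨⟨t', ht'⟩, ?_, fun w hw => ?_⟩
    · by_contra h6
      exact (ne_of_gt h4) (h5 v h6)
    · by_contra h6
      exact (ne_of_gt (h2.trans_lt (h3 w hw))) (h5 w h6)
  exact countable_univ_iff.1 (h.countable_univ fun s =>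
    ⟨T.ι (T.bary s), by
      show Pos s.1 (T.bc (T.ι (T.bary s)))
      rw [T.bc_ι _ (T.bary_mem s)]
      exact T.pos_bary s⟩)

/-- the coloured graph -/
def cg [SigmaCompactSpace Z] (free : ∀ (g : G) (z : Z), g • z = z → g = 1) (cnt : Countable G)
    (two : ∀ g : G, g ^ 2 = 1 → g = 1) : CG G T.S where
  gr := T.gr
  col s := ⟨s.1.card - 1, by have := T.K.card_le s.2; have := (T.K.ne s.2).card_pos; omega⟩
  col_ne {s t} h e := by
    have h1 := (T.K.ne s.2).card_pos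
    have h2 := (T.K.ne t.2).card_pos
    have h3 : s.1.card - 1 = t.1.card - 1 := congrArg Fin.val e
    rcases h.2 with h4 | h4
    · exact h.1 (Subtype.ext (Finset.eq_of_subset_of_card_le h4 (by omega)))
    · exact h.1 (Subtype.ext (Finset.eq_of_subset_of_card_le h4 (by omega)).symm)
  adj_smul g {s t} h := ⟨fun e => h.1 (MulAction.injective g e), h.2.imp
    Finset.smul_finset_subset_smul_finset_iff.2 Finset.smul_finset_subset_smul_finset_iff.2⟩
  col_smul g s := Fin.ext (by simp only [smul_val, Finset.card_smul_finset])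
  free g s h := by
    refine free g (T.ι (T.bary s)) (T.bc_ext (funext fun v => ?_))
    have h1 := T.bc_smul g (T.ι (T.bary s)) (g⁻¹ • v)
    rw [smul_inv_smul] at h1
    rw [h1, T.bc_ι _ (T.bary_mem s), bary, bary]
    have h2 : g • s.1 = s.1 := congrArg Subtype.val h
    simp only [Finset.inv_smul_mem_iff, h2]
  lf s := by
    obtain ⟨v, hv⟩ := T.K.ne s.2
    exact ((T.star_fin v).union (T.sub_fin s.1)).subset fun t ht =>
      ht.2.imp (fun h => h hv) id
  cnt := T.countable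
  cntG := cnt
  two := two

/-- the cone, without the group data -/
def Cn : Set (T.S → ℝ) := {q | (∀ s, 0 ≤ q s) ∧ T.gr.IsClique {s | q s ≠ 0}}

/-- vertex coordinates -/
def xo (q : T.S → ℝ) (v : T.V) : ℝ := ∑ᶠ s, if v ∈ s.1 then q s else 0

/-- the sum of the vertex coordinates -/
def tot (q : T.S → ℝ) : ℝ := ∑ᶠ s, (s.1.card : ℝ) * q s

variable {T}

theorem xo_eq {q : T.S → ℝ} {c : Finset T.S} (v : T.V) (h : ∀ s, v ∈ s.1 → q s ≠ 0 → s ∈ c) :
    T.xo q v = ∑ s ∈ c, if v ∈ s.1 then q s else 0 :=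
  finsum_eq_sum_of_support_subset _ fun s hs => by
    by_cases h1 : v ∈ s.1
    · exact h s h1 (by simpa [h1] using hs)
    · simp [h1] at hs

theorem tot_eq {q : T.S → ℝ} {c : Finset T.S} (h : ∀ s, q s ≠ 0 → s ∈ c) :
    T.tot q = ∑ s ∈ c, (s.1.card : ℝ) * q s :=
  finsum_eq_sum_of_support_subset _ fun s hs => h s (right_ne_zero_of_mul hs)

theorem xo_cont : Continuous T.xo := by
  refine continuous_pi fun v => ?_
  have : (fun q => T.xo q v) =
      fun q => ∑ s ∈ (T.star_fin v).toFinset, if v ∈ s.1 then q s else 0 :=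
    funext fun q => xo_eq v fun s h _ => (Finite.mem_toFinset _).2 h
  rw [this]
  refine continuous_finsetSum _ fun s _ => ?_
  split_ifs
  exacts [continuous_apply s, continuous_const]

theorem xo_smul (a : ℝ) (q : T.S → ℝ) : T.xo (a • q) = a • T.xo q := by
  funext v
  rw [Pi.smul_apply, xo_eq (c := (T.star_fin v).toFinset) v fun s h _ =>
    (Finite.mem_toFinset _).2 h, xo_eq (c := (T.star_fin v).toFinset) v fun s h _ =>
    (Finite.mem_toFinset _).2 h, smul_eq_mul, Finset.mul_sum]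
  exact Finset.sum_congr rfl fun s _ => by split_ifs <;> simp

theorem xo_sh (g : G) (q : T.S → ℝ) (v : T.V) : T.xo (sh g q) (g • v) = T.xo q v := by
  rw [xo, ← finsum_comp_equiv (MulAction.toPerm g)]
  refine finsum_congr fun s => ?_
  simp [sh, smul_val]

theorem tot_sh (g : G) (q : T.S → ℝ) : T.tot (sh g q) = T.tot q := by
  rw [tot, ← finsum_comp_equiv (MulAction.toPerm g)]
  refine finsum_congr fun s => ?_
  simp [sh, smul_val]

theorem cmp {q : T.S → ℝ} (h : q ∈ T.Cn) {s t : T.S} (hs : q s ≠ 0) (ht : q t ≠ 0) :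
    s.1 ⊆ t.1 ∨ t.1 ⊆ s.1 := by
  by_cases e : s = t
  · exact Or.inl (e ▸ subset_rfl)
  · exact (h.2 hs ht e).2

theorem exists_top {q : T.S → ℝ} (h : q ∈ T.Cn) {c : Finset T.S} (hc : ∀ s ∈ c, q s ≠ 0)
    (hne : c.Nonempty) : ∃ t ∈ c, ∀ s ∈ c, s.1 ⊆ t.1 := by
  obtain ⟨t, ht, hm⟩ := c.exists_max_image (fun s => s.1.card) hne
  refine ⟨t, ht, fun s hs => (cmp h (hc s hs) (hc t ht)).elim id fun h1 => ?_⟩
  rw [Finset.eq_of_subset_of_card_le h1 (hm s hs)]

theorem exists_bot {q : T.S → ℝ} (h : q ∈ T.Cn) {c : Finset T.S} (hc : ∀ s ∈ c, q s ≠ 0)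
    (hne : c.Nonempty) : ∃ t ∈ c, ∀ s ∈ c, t.1 ⊆ s.1 := by
  obtain ⟨t, ht, hm⟩ := c.exists_min_image (fun s => s.1.card) hne
  refine ⟨t, ht, fun s hs => (cmp h (hc t ht) (hc s hs)).elim id fun h1 => ?_⟩
  rw [Finset.eq_of_subset_of_card_le h1 (hm s hs)]

theorem supp_fin {q : T.S → ℝ} (h : q ∈ T.Cn) : ∃ c : Finset T.S, ∀ s, s ∈ c ↔ q s ≠ 0 := by
  have : {s | q s ≠ 0}.Finite := by
    rcases eq_empty_or_nonempty {s | q s ≠ 0} with e | ⟨s, hs⟩
    · rw [e]; exact finite_empty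
    · obtain ⟨v, hv⟩ := T.K.ne s.2
      exact ((T.star_fin v).union (T.sub_fin s.1)).subset fun t ht =>
        (cmp h hs ht).imp (fun h => h hv) id
  exact ⟨this.toFinset, fun s => Finite.mem_toFinset _⟩

theorem tot_smul (a : ℝ) {q : T.S → ℝ} (h : q ∈ T.Cn) : T.tot (a • q) = a * T.tot q := by
  obtain ⟨c, hc⟩ := supp_fin h
  rw [tot_eq (q := a • q) (c := c) fun s hs => (hc s).2 (right_ne_zero_of_mul hs),
    tot_eq (c := c) fun s hs => (hc s).2 hs, Finset.mul_sum]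
  exact Finset.sum_congr rfl fun s _ => by simp [mul_left_comm]

theorem smul_mem {a : ℝ} (ha : 0 ≤ a) {q : T.S → ℝ} (h : q ∈ T.Cn) : a • q ∈ T.Cn :=
  ⟨fun s => mul_nonneg ha (h.1 s),
    Set.Pairwise.mono (s := {s | q s ≠ 0}) (fun _ hs => right_ne_zero_of_mul hs) h.2⟩

theorem tot_pos {q : T.S → ℝ} (h : q ∈ T.Cn) {s : T.S} (hs : 0 < q s) : 0 < T.tot q := by
  obtain ⟨c, hc⟩ := supp_fin h
  rw [tot_eq (c := c) fun s hs => (hc s).2 hs]
  exact Finset.sum_pos' (fun t _ => mul_nonneg (T.card_pos t).le (h.1 t))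
    ⟨s, (hc s).2 hs.ne', mul_pos (T.card_pos s) hs⟩

theorem sum_xo {q : T.S → ℝ} {c : Finset T.S} (hc : ∀ s, q s ≠ 0 → s ∈ c) {t : Finset T.V}
    (ht : ∀ s ∈ c, s.1 ⊆ t) : ∑ v ∈ t, T.xo q v = T.tot q := by
  rw [tot_eq hc, Finset.sum_congr rfl fun v _ => xo_eq (c := c) v fun s _ h => hc s h,
    Finset.sum_comm]
  refine Finset.sum_congr rfl fun s hs => ?_
  rw [← Finset.sum_filter, Finset.filter_mem_eq_inter, Finset.inter_eq_right.2 (ht s hs),
    Finset.sum_const, nsmul_eq_mul]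

theorem xo_nonneg {q : T.S → ℝ} (h : q ∈ T.Cn) (v : T.V) : 0 ≤ T.xo q v :=
  finsum_nonneg fun s => by
    split_ifs
    exacts [h.1 s, le_rfl]

theorem xo_mem {q : T.S → ℝ} (h : q ∈ T.Cn) (h1 : T.tot q = 1) : T.xo q ∈ T.K.real := by
  obtain ⟨c, hc⟩ := supp_fin h
  have hne : c.Nonempty := by
    rw [tot_eq (c := c) fun s hs => (hc s).2 hs] at h1
    exact Finset.nonempty_of_sum_ne_zero (h1.trans_ne one_ne_zero)
  obtain ⟨t, -, ht⟩ := exists_top h (fun s hs => (hc s).1 hs) hne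
  refine ⟨xo_nonneg h, t.1, t.2, fun v hv => ?_, (sum_xo (fun s hs => (hc s).2 hs) ht).trans h1⟩
  rw [xo_eq (c := c) v fun s _ hs => (hc s).2 hs]
  exact Finset.sum_eq_zero fun s hs => if_neg fun h2 => hv (ht s hs h2)

theorem exists_xo {x : T.V → ℝ} (hx : x ∈ T.K.real) : ∃ q ∈ T.Cn, T.tot q = 1 ∧ T.xo q = x := by
  obtain ⟨h0, A, hA, h1, h2⟩ := hx
  obtain ⟨c, q, c1, c2, c3, c4⟩ := gap_exists A x h0 h1
  have hm : ∀ s : T.S, q s.1 ≠ 0 → s.1 ∈ c := fun s hs => by
    by_contra h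
    exact hs (c3 _ h)
  have hc : ∀ s : T.S, q s.1 ≠ 0 → s ∈ c.subtype T.K.face := fun s hs =>
    Finset.mem_subtype.2 (hm s hs)
  have e : T.xo (fun s => q s.1) = x := by
    funext v
    rw [xo_eq (c := c.subtype T.K.face) v fun s _ hs => hc s hs, c4 v]
    refine (Finset.sum_subtype_of_mem (fun s : Finset T.V => if v ∈ s then q s else 0)
      fun s hs => T.K.down hA (c1 s hs).1 (c1 s hs).2.1).trans ?_
    exact Finset.sum_congr rfl fun s _ => by simp [indicator]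
  refine ⟨fun s => q s.1, ⟨fun s => ?_, fun s hs t ht h => ⟨h, c2 _ (hm s hs) _ (hm t ht)⟩⟩, ?_, e⟩
  · by_cases h : s.1 ∈ c
    exacts [(c1 _ h).2.2.le, (c3 _ h).ge]
  · rw [← sum_xo (t := A) hc fun s hs => (c1 _ (Finset.mem_subtype.1 hs)).1, e, h2]

variable (T)

/-- the vertices which lie in a simplex that meets `s` -/
def nb (s : T.S) : Finset T.V :=
  s.1.biUnion fun v => (T.star_fin v).toFinset.biUnion fun t => t.1

/-- chain coordinates -/
def gap (x : T.V → ℝ) (s : T.S) : ℝ :=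
  max 0 (s.1.inf' (T.K.ne s.2) x - (T.nb s \ s.1).fold max 0 x)

variable {T}

theorem mem_nb {s t : T.S} {v w : T.V} (h1 : v ∈ s.1) (h2 : v ∈ t.1) (h3 : w ∈ t.1) :
    w ∈ T.nb s :=
  Finset.mem_biUnion.2 ⟨v, h1, Finset.mem_biUnion.2 ⟨t, (Finite.mem_toFinset _).2 h2, h3⟩⟩

theorem fold_cont {V : Type} (A : Finset V) : Continuous fun x : V → ℝ => A.fold max 0 x := by
  induction A using Finset.induction_on with
  | empty => simpa using continuous_const
  | insert a A h ih =>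
    simp only [Finset.fold_insert h]
    exact (continuous_apply a).max ih

theorem gap_cont : Continuous T.gap :=
  continuous_pi fun s => continuous_const.max
    ((Continuous.finset_inf'_apply (T.K.ne s.2) fun v _ => continuous_apply v).sub (fold_cont _))

theorem gap_xo {q : T.S → ℝ} (h : q ∈ T.Cn) : T.gap (T.xo q) = q := by
  funext s
  obtain ⟨c, hc⟩ := supp_fin h
  have hx : ∀ v, T.xo q v = ∑ t ∈ c, if v ∈ t.1 then q t else 0 := fun v =>
    xo_eq v fun t _ ht => (hc t).2 ht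
  have ite0 : ∀ (p : Prop) [Decidable p] t, 0 ≤ if p then q t else 0 := fun p _ t => by
    split_ifs
    exacts [h.1 t, le_rfl]
  have mono : ∀ (p p' : T.S → Prop) [DecidablePred p] [DecidablePred p'], (∀ t ∈ c, p t → p' t) →
      (∑ t ∈ c, if p t then q t else 0) ≤ ∑ t ∈ c, if p' t then q t else 0 := fun p p' _ _ hp =>
    Finset.sum_le_sum fun t ht => by
      by_cases h1 : p t
      · rw [if_pos h1, if_pos (hp t ht h1)]
      · rw [if_neg h1]; exact ite0 _ t
  set A := ∑ t ∈ c, if s.1 ⊆ t.1 then q t else 0 with hA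
  set B := ∑ t ∈ c, if s.1 ⊆ t.1 ∧ t ≠ s then q t else 0 with hB
  have hAB : A = B + q s := by
    have h1 : q s = ∑ t ∈ c, if t = s then q t else 0 := by
      rw [Finset.sum_ite_eq']
      split_ifs with h2
      · rfl
      · by_contra h3
        exact h2 ((hc s).2 h3)
    rw [h1, hA, hB, ← Finset.sum_add_distrib]
    refine Finset.sum_congr rfl fun t _ => ?_
    by_cases h2 : t = s
    · simp [h2]
    · simp [h2]
  have h1 : s.1.inf' (T.K.ne s.2) (T.xo q) = A := by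
    refine le_antisymm ?_ (Finset.le_inf' _ _ fun v hv => ?_)
    · have : ∃ v ∈ s.1, ∀ t ∈ c, v ∈ t.1 → s.1 ⊆ t.1 := by
        rcases (c.filter fun t => ¬ s.1 ⊆ t.1).eq_empty_or_nonempty with e | hne
        · obtain ⟨v, hv⟩ := T.K.ne s.2
          refine ⟨v, hv, fun t ht _ => ?_⟩
          by_contra h2
          exact Finset.notMem_empty t (e ▸ Finset.mem_filter.2 ⟨ht, h2⟩)
        · obtain ⟨t₀, ht₀, hm⟩ := exists_top h
            (fun t ht => (hc t).1 (Finset.mem_filter.1 ht).1) hne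
          obtain ⟨v, hv, hv'⟩ := Finset.not_subset.1 (Finset.mem_filter.1 ht₀).2
          refine ⟨v, hv, fun t ht h2 => ?_⟩
          by_contra h3
          exact hv' (hm t (Finset.mem_filter.2 ⟨ht, h3⟩) h2)
      obtain ⟨v, hv, h2⟩ := this
      refine (Finset.inf'_le _ hv).trans ?_
      rw [hx]
      exact mono (fun t => v ∈ t.1) (fun t => s.1 ⊆ t.1) h2
    · rw [hx]
      exact mono (fun t => s.1 ⊆ t.1) (fun t => v ∈ t.1) fun t _ h2 => h2 hv
  have h2 : B ≤ (T.nb s \ s.1).fold max 0 (T.xo q) := by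
    rw [Finset.le_fold_max]
    rcases (c.filter fun t => s.1 ⊆ t.1 ∧ t ≠ s).eq_empty_or_nonempty with e | hne
    · exact Or.inl (by rw [hB, ← Finset.sum_filter, e, Finset.sum_empty])
    · obtain ⟨t₀, ht₀, hm⟩ := exists_bot h (fun t ht => (hc t).1 (Finset.mem_filter.1 ht).1) hne
      obtain ⟨h3, h4⟩ := (Finset.mem_filter.1 ht₀).2
      obtain ⟨w, hw, hw'⟩ := Finset.not_subset.1 fun h5 : t₀.1 ⊆ s.1 =>
        h4 (Subtype.ext (Finset.Subset.antisymm h5 h3))
      obtain ⟨v, hv⟩ := T.K.ne s.2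
      refine Or.inr ⟨w, Finset.mem_sdiff.2 ⟨mem_nb hv (h3 hv) hw, hw'⟩, ?_⟩
      rw [hx]
      exact mono (fun t => s.1 ⊆ t.1 ∧ t ≠ s) (fun t => w ∈ t.1) fun t ht h5 =>
        hm t (Finset.mem_filter.2 ⟨ht, h5⟩) hw
  rw [gap, h1]
  refine le_antisymm (max_le (h.1 s) (by linarith)) ?_
  by_cases h3 : q s = 0
  · rw [h3]; exact le_max_left _ _
  · have h4 : (T.nb s \ s.1).fold max 0 (T.xo q) ≤ B := by
      rw [Finset.fold_max_le]
      refine ⟨Finset.sum_nonneg fun t _ => ite0 _ t, fun w hw => ?_⟩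
      rw [hx]
      have h5 := (Finset.mem_sdiff.1 hw).2
      exact mono (fun t => w ∈ t.1) (fun t => s.1 ⊆ t.1 ∧ t ≠ s) fun t ht h6 =>
        ⟨(cmp h h3 ((hc t).1 ht)).elim id fun h7 => absurd (h7 h6) h5, fun e => h5 (e ▸ h6)⟩
    exact le_max_of_le_right (by linarith)

theorem gap_spec {x : T.V → ℝ} (hx : x ∈ T.K.real) :
    T.gap x ∈ T.Cn ∧ T.tot (T.gap x) = 1 ∧ T.xo (T.gap x) = x := by
  obtain ⟨q, h, h1, rfl⟩ := exists_xo hx
  rw [gap_xo h]
  exact ⟨h, h1, rfl⟩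

theorem pos_iff {x : T.V → ℝ} (hx : x ∈ T.K.real) (s : T.S) : 0 < T.gap x s ↔ Pos s.1 x := by
  rw [gap, lt_max_iff, or_iff_right (lt_irrefl _), sub_pos, Finset.lt_inf'_iff]
  have h0 : 0 ≤ (T.nb s \ s.1).fold max 0 x := (Finset.le_fold_max _).2 (Or.inl le_rfl)
  constructor
  · intro h
    refine ⟨_, h0, h, fun w hw => ?_⟩
    obtain ⟨-, t, ht, h1, -⟩ := hx
    by_cases h2 : w ∈ t
    · obtain ⟨v, hv⟩ := T.K.ne s.2
      have h3 : v ∈ t := by
        by_contra h3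
        exact (h0.trans_lt (h v hv)).ne' (h1 v h3)
      exact (Finset.le_fold_max _).2 (Or.inr ⟨w,
        Finset.mem_sdiff.2 ⟨mem_nb (t := ⟨t, ht⟩) hv h3 h2, hw⟩, le_rfl⟩)
    · rw [h1 w h2]; exact h0
  · rintro ⟨θ, h1, h2, h3⟩ v hv
    exact ((Finset.fold_max_le _).2 ⟨h1, fun w hw => h3 w (Finset.mem_sdiff.1 hw).2⟩).trans_lt
      (h2 v hv)

end Tri

end Vale.Agent.P260Z.L2
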