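import Vale.Agent.P260Z.L2.Defs

/-!
# P260, layer 2: a triangulation from finitely many orbits of simplices
-/

noncomputable section

namespace Vale.Agent.P260Z.L2

open Set Topology

theorem contOn_image {A Z Y : Type*} [TopologicalSpace A] [TopologicalSpace Z]
    [TopologicalSpace Y] [T2Space Z] {f : A → Z} {K : Set A} (hK : IsCompact K)
    (hf : ContinuousOn f K) {b : Z → Y} (h : ContinuousOn (fun a => b (f a)) K) :
    ContinuousOn b (f '' K) := by
  refine continuousOn_iff_isClosed.2 fun t ht => ?_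
  obtain ⟨u, hu, e⟩ := continuousOn_iff_isClosed.1 h t ht
  refine ⟨f '' (u ∩ K), ((hK.inter_left hu).image_of_continuousOn
    (hf.mono inter_subset_right)).isClosed, ?_⟩
  rw [inter_eq_left.2 (image_mono inter_subset_right), ← e]
  ext z
  exact ⟨fun ⟨h1, a, h2, h3⟩ => ⟨a, ⟨show b (f a) ∈ t from h3 ▸ h1, h2⟩, h3⟩,
    fun ⟨a, h1, h3⟩ => ⟨h3 ▸ h1.1, a, h1.2, h3⟩⟩

variable {G Z : Type} [Group G] [TopologicalSpace Z] [MulAction G Z]

open Classical in
/-- the coordinates `t` on the vertices `u` -/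
def co (u : Fin 4 → Z) (t : Fin 4 → ℝ) (v : Z) : ℝ := ∑ j, if u j = v then t j else 0

/-- finitely many orbits of simplices -/
structure Simp (G Z : Type) [Group G] [TopologicalSpace Z] [MulAction G Z] where
  /-- orbits of simplices -/
  J : Type
  fin : Finite J
  /-- the simplices -/
  ψ : J → (Fin 4 → ℝ) → Z
  /-- their vertices -/
  vx : J → Fin 4 → Z
  cont : ∀ a, ContinuousOn (ψ a) (stdSimplex ℝ (Fin 4))
  inj : ∀ a, Function.Injective (vx a)
  cover : ∀ z : Z, ∃ (g : G) (a : J), ∃ t ∈ stdSimplex ℝ (Fin 4), g • ψ a t = z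
  compat : ∀ (g g' : G) a a', ∀ t ∈ stdSimplex ℝ (Fin 4), ∀ t' ∈ stdSimplex ℝ (Fin 4),
    g • ψ a t = g' • ψ a' t' ↔ co (fun j => g • vx a j) t = co (fun j => g' • vx a' j) t'

namespace Simp

variable (Q : Simp G Z)

theorem exists_bc : ∃ bc : Z → Z → ℝ, ∀ (g : G) a, ∀ t ∈ stdSimplex ℝ (Fin 4),
    bc (g • Q.ψ a t) = co (fun j => g • Q.vx a j) t := by
  choose g a t ht e using Q.cover
  exact ⟨fun z => co (fun j => g z • Q.vx (a z) j) (t z), fun g' a' t' ht' =>
    (Q.compat _ _ _ _ _ (ht _) _ ht').1 (e _)⟩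

variable [ProperlyDiscontinuousSMul G Z]

theorem fin_vx (v : Z) : {p : G × Q.J | ∃ j, p.1 • Q.vx p.2 j = v}.Finite := by
  have := Q.fin
  refine ((finite_iUnion fun p : Q.J × Fin 4 =>
    ProperlyDiscontinuousSMul.finite_disjoint_inter_image (Γ := G)
      (isCompact_singleton (x := Q.vx p.1 p.2)) (isCompact_singleton (x := v))).prod
    (finite_univ (α := Q.J))).subset ?_
  rintro ⟨g, a⟩ ⟨j, h⟩
  exact ⟨mem_iUnion.2 ⟨(a, j), v, ⟨_, rfl, h⟩, rfl⟩, trivial⟩

/-- the complex -/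
def cx : SC Z where
  face s := s.Nonempty ∧ ∃ (g : G) (a : Q.J), ∀ v ∈ s, ∃ j, g • Q.vx a j = v
  ne h := h.1
  down := fun ⟨_, g, a, h⟩ h1 h2 => ⟨h2, g, a, fun v hv => h v (h1 hv)⟩
  card_le := fun {s} ⟨_, g, a, h⟩ => by
    classical
    refine (Finset.card_le_card (t := Finset.univ.image fun j => g • Q.vx a j) fun v hv => ?_).trans
      (Finset.card_image_le.trans (by simp))
    simpa using h v hv
  lf v := by
    classical
    refine ((Q.fin_vx v).biUnion fun p _ =>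
      (Finset.univ.image fun j => p.1 • Q.vx p.2 j).powerset.finite_toSet).subset ?_
    rintro s ⟨⟨-, g, a, h⟩, hv⟩
    refine mem_biUnion (x := (g, a)) (h v hv) (Finset.mem_powerset.2 fun w hw => ?_)
    simpa using h w hw

theorem co_mem (g : G) (a : Q.J) {t : Fin 4 → ℝ} (ht : t ∈ stdSimplex ℝ (Fin 4)) :
    co (fun j => g • Q.vx a j) t ∈ Q.cx.real := by
  classical
  refine ⟨fun v => Finset.sum_nonneg fun j _ => ?_, Finset.univ.image fun j => g • Q.vx a j,
    ⟨by simp, g, a, fun v hv => by simpa using hv⟩, fun v hv => Finset.sum_eq_zero fun j _ =>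
      if_neg fun e => hv (Finset.mem_image.2 ⟨j, Finset.mem_univ _, e⟩), ?_⟩
  · split_ifs
    exacts [ht.1 j, le_rfl]
  · unfold co
    rw [Finset.sum_comm, ← ht.2]
    refine Finset.sum_congr rfl fun j _ => ?_
    rw [Finset.sum_ite_eq, if_pos (Finset.mem_image_of_mem _ (Finset.mem_univ j))]

theorem exists_co {x : Z → ℝ} (hx : x ∈ Q.cx.real) : ∃ (g : G) (a : Q.J),
    ∃ t ∈ stdSimplex ℝ (Fin 4), co (fun j => g • Q.vx a j) t = x := by
  classical
  obtain ⟨h0, s, ⟨-, g, a, h⟩, h1, h2⟩ := hx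
  have hi : Function.Injective fun j => g • Q.vx a j := (MulAction.injective g).comp (Q.inj a)
  refine ⟨g, a, fun j => x (g • Q.vx a j), ⟨fun j => h0 _, ?_⟩, funext fun v => ?_⟩
  · rw [← h2, ← Finset.sum_image (g := fun j => g • Q.vx a j) hi.injOn]
    exact (Finset.sum_subset (fun v hv => by simpa using h v hv) fun v _ hv => h1 v hv).symm
  · by_cases e : ∃ j, g • Q.vx a j = v
    · obtain ⟨j, rfl⟩ := e
      rw [co, Finset.sum_eq_single j (fun k _ hk => if_neg fun e => hk (hi e)) (by simp), if_pos rfl]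
    · rw [h1 v fun hv => e (h v hv)]
      exact Finset.sum_eq_zero fun j _ => if_neg fun e' => e ⟨j, e'⟩

include Q in
theorem tri [T2Space Z] [LocallyCompactSpace Z] [ContinuousConstSMul G Z] [Nonempty Z] :
    Nonempty (Tri G Z) := by
  classical
  have := Q.fin
  obtain ⟨bc, hbc⟩ := Q.exists_bc
  have cp := isCompact_stdSimplex ℝ (Fin 4)
  set C : G × Q.J → Set Z := fun p => (fun t => p.1 • Q.ψ p.2 t) '' stdSimplex ℝ (Fin 4) with hC
  have c1 : ∀ p : G × Q.J, ContinuousOn (fun t => p.1 • Q.ψ p.2 t) (stdSimplex ℝ (Fin 4)) :=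
    fun p => (Q.cont p.2).const_smul p.1
  have c2 : ∀ p, IsCompact (C p) := fun p => cp.image_of_continuousOn (c1 p)
  have lf : LocallyFinite C := fun z => by
    obtain ⟨N, hN, hz⟩ := exists_compact_mem_nhds z
    refine ⟨N, hz, ((finite_iUnion fun a : Q.J =>
      ProperlyDiscontinuousSMul.finite_disjoint_inter_image (Γ := G)
        (cp.image_of_continuousOn (Q.cont a)) hN).prod (finite_univ (α := Q.J))).subset ?_⟩
    rintro ⟨g, a⟩ ⟨w, ⟨t, ht, e⟩, hw⟩
    exact ⟨mem_iUnion.2 ⟨a, w, ⟨_, ⟨t, ht, rfl⟩, e⟩, hw⟩, trivial⟩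
  have cb : Continuous bc := by
    refine lf.continuous (eq_univ_of_forall fun z => ?_) (fun p => (c2 p).isClosed) fun p =>
      contOn_image cp (c1 p) (ContinuousOn.congr (f := co fun j => p.1 • Q.vx p.2 j)
        (Continuous.continuousOn ?_) (hbc p.1 p.2))
    · obtain ⟨g, a, t, ht, e⟩ := Q.cover z
      exact mem_iUnion.2 ⟨(g, a), t, ht, e⟩
    · refine continuous_pi fun v => continuous_finsetSum _ fun j _ => ?_
      split_ifs
      exacts [continuous_apply j, continuous_const]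
  have hi : Function.Injective bc := fun z z' e => by
    obtain ⟨g, a, t, ht, rfl⟩ := Q.cover z
    obtain ⟨g', a', t', ht', rfl⟩ := Q.cover z'
    rw [hbc g a t ht, hbc g' a' t' ht'] at e
    exact (Q.compat _ _ _ _ _ ht _ ht').2 e
  have hl := Function.leftInverse_invFun hi
  refine ⟨{
    V := Z, K := Q.cx, ι := Function.invFun bc, bc := bc, bc_cont := cb, ι_bc := hl
    face_smul := fun g s t ⟨⟨v, hv⟩, g', a, h⟩ e => ⟨⟨g • v, (e _).2 (by rwa [inv_smul_smul])⟩,
      g * g', a, fun w hw => ?_⟩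
    ι_cont := fun x hx => ?_
    bc_mem := fun z => ?_
    bc_ι := fun x hx => ?_
    bc_smul := fun g z v => ?_ }⟩
  · obtain ⟨j, hj⟩ := h _ ((e w).1 hw)
    exact ⟨j, by rw [mul_smul, hj, smul_inv_smul]⟩
  · obtain ⟨v, hv⟩ : ∃ v, x v ≠ 0 := by
      obtain ⟨-, s, -, -, h⟩ := hx
      obtain ⟨v, -, hv⟩ := Finset.exists_ne_zero_of_sum_ne_zero (h.trans_ne one_ne_zero)
      exact ⟨v, hv⟩
    have k1 := (Q.fin_vx v).isCompact_biUnion fun p _ => c2 p
    have k2 : ∀ y ∈ Q.cx.real, y v ≠ 0 →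
        y ∈ bc '' ⋃ p ∈ {p : G × Q.J | ∃ j, p.1 • Q.vx p.2 j = v}, C p := fun y hy h => by
      obtain ⟨g, a, t, ht, rfl⟩ := Q.exists_co hy
      obtain ⟨j, -, hj⟩ := Finset.exists_ne_zero_of_sum_ne_zero h
      exact ⟨_, mem_biUnion (x := (g, a)) ⟨j, by_contra fun e => hj (if_neg e)⟩ ⟨t, ht, rfl⟩,
        hbc g a t ht⟩
    refine (contOn_image k1 cb.continuousOn (continuousOn_id.congr fun z _ => hl z) x
      (k2 x hx hv)).mono_of_mem_nhdsWithin ?_
    filter_upwards [self_mem_nhdsWithin, mem_nhdsWithin_of_mem_nhds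
      ((continuous_apply v).continuousAt.eventually_ne hv)] with y h1 h2 using k2 y h1 h2
  · obtain ⟨g, a, t, ht, rfl⟩ := Q.cover z
    exact hbc g a t ht ▸ Q.co_mem g a ht
  · obtain ⟨g, a, t, ht, rfl⟩ := Q.exists_co hx
    rw [← hbc g a t ht, hl]
  · obtain ⟨g', a, t, ht, rfl⟩ := Q.cover z
    rw [← mul_smul, hbc _ a t ht, hbc _ a t ht]
    simp only [co, mul_smul, smul_left_cancel_iff]

end Simp

end Vale.Agent.P260Z.L2
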